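import Vale.Agent.P254.US.K
import Vale.Agent.P254.Bdl.B2
import Vale.Agent.P254.Bdl.B4
import Vale.Agent.P254.Bdl.B5
import Vale.Agent.P254.Bdl.B7
import Vale.Agent.P254.Bdl.B10
import Vale.Agent.P254.Bdl.B13
import Vale.Agent.P254.Bdl.B17
import Vale.Agent.P254.Bdl.B20

/-!
Convex bodies which nearly fill an unconditional sum.
-/

open MeasureTheory Set Matrix

namespace Vale.Agent.P254.US

open FV Unc

variable {m : ℕ} {d : Fin m → ℕ} {U : Set (Fin m → ℝ)}

theorem aH_mul2 {p : ℕ} (hp : 1 ≤ p) (q : ℕ) :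
    256 * (aH p * aH (q + 1)) ≤ 243 * aH (p + (q + 1)) := by
  induction q with
  | zero =>
    have h1 : aH (p + (0 + 1)) = aH p * rH p := aH_succ p
    have h2 : aH (0 + 1) = 1 / 8 := by rw [zero_add]; norm_num [aH]
    have h3 : rH 1 ≤ rH p := rH_strictMono.monotone hp
    have h4 : rH 1 = 32 / 243 := by norm_num [rH]
    rw [h1, h2]
    have := aH_pos p
    nlinarith
  | succ q ih =>
    have h1 : aH (p + (q + 1 + 1)) = aH (p + (q + 1)) * rH (p + (q + 1)) := aH_succ _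
    have h2 : aH (q + 1 + 1) = aH (q + 1) * rH (q + 1) := aH_succ _
    have h3 : rH (q + 1) ≤ rH (p + (q + 1)) := rH_strictMono.monotone (by omega)
    have h4 := rH_pos (q + 1)
    have h5 := aH_pos (p + (q + 1))
    rw [h1, h2]
    calc 256 * (aH p * (aH (q + 1) * rH (q + 1))) = 256 * (aH p * aH (q + 1)) * rH (q + 1) := by
          ring
      _ ≤ 243 * aH (p + (q + 1)) * rH (q + 1) := mul_le_mul_of_nonneg_right ih h4.le
      _ ≤ 243 * aH (p + (q + 1)) * rH (p + (q + 1)) :=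
          mul_le_mul_of_nonneg_left h3 (by positivity)
      _ = _ := by ring

theorem aH_prod2 (hm : 2 ≤ m) (d : Fin m → ℕ) (hd : ∀ i, 1 ≤ d i) :
    256 * ∏ i, aH (d i) ≤ 243 * aH (∑ i, d i) := by
  obtain ⟨k, rfl⟩ : ∃ k, m = k + 2 := ⟨m - 2, by omega⟩
  rw [Fin.prod_univ_succ, Fin.sum_univ_succ]
  have h1 : ∏ i : Fin (k + 1), aH (d i.succ) ≤ aH (∑ i : Fin (k + 1), d i.succ) := aH_prod_le _
  have h2 : 1 ≤ ∑ i : Fin (k + 1), d i.succ :=
    (hd (Fin.succ 0)).trans (Finset.single_le_sum (f := fun i : Fin (k + 1) => d i.succ)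
      (fun _ _ => Nat.zero_le _) (Finset.mem_univ 0))
  obtain ⟨q, hq⟩ : ∃ q, ∑ i : Fin (k + 1), d i.succ = q + 1 :=
    ⟨∑ i : Fin (k + 1), d i.succ - 1, by omega⟩
  rw [hq] at h1 ⊢
  have h3 := aH_mul2 (hd 0) q
  have h4 := mul_le_mul_of_nonneg_left h1 (aH_pos (d 0)).le
  linarith

theorem arith2 (hm : 2 ≤ m) (d : Fin m → ℕ) (hd : ∀ i, 1 ≤ d i) :
    ((((∑ i, d i : ℕ) : ℝ) + 1) / (((∑ i, d i : ℕ) : ℝ) + 2)) ^ (∑ i, d i) *
      ∏ i, ((((d i : ℝ) + 2) / ((d i : ℝ) + 1)) ^ (d i) * simpC (d i)) ≤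
        243 / 256 * simpC (∑ i, d i) := by
  have h1 := aH_prod2 hm d hd
  have h2 := aH_eq (∑ i, d i)
  simp_rw [aH_eq]
  set n := ∑ i, d i
  have hq : (0 : ℝ) < (((n : ℝ) + 1) / ((n : ℝ) + 2)) ^ n := by positivity
  have e : (((n : ℝ) + 1) / ((n : ℝ) + 2)) ^ n * (((n : ℝ) + 2) / ((n : ℝ) + 1)) ^ n = 1 := by
    rw [← mul_pow, div_mul_div_comm, mul_comm, div_self (by positivity), one_pow]
  have h3 : (((n : ℝ) + 1) / ((n : ℝ) + 2)) ^ n * aH n = simpC n := by
    rw [← h2, ← mul_assoc, e, one_mul]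
  rw [← h3]
  have h4 := mul_le_mul_of_nonneg_left h1 hq.le
  linarith

theorem Dn_uncSum_le2 (hm : 2 ≤ m) (hd : ∀ i, 1 ≤ d i) (hU : IsConvexBody U) (hu : Uncond U)
    {L : ∀ i, Set (Fin (d i) → ℝ)} (hL : ∀ i, IsConvexBody (L i))
    (hc : ∀ i, centroid (L i) = 0) (hD : ∀ i, Dn (L i) ≤ simpC (d i)) :
    Dn (uncSum d L U) ≤ 243 / 256 * simpC (∑ i, d i) := by
  refine ((Dn_uncSum_le hd hU hu hL hc).trans ?_).trans (arith2 hm d hd)
  refine mul_le_mul_of_nonneg_left ?_ (by positivity)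
  refine Finset.prod_le_prod (fun i _ => ?_) fun i _ => ?_
  · exact mul_nonneg (by positivity)
      (div_nonneg (covMatrix_posSemidef (hL i).2.1).det_nonneg (by positivity))
  · exact mul_le_mul_of_nonneg_left (hD i) (by positivity)

/-- The bodies which nearly fill a body with a margin. -/
theorem Dn_near {n : ℕ} (hn : 1 ≤ n) {K L : Set (Fin n → ℝ)} (hK : IsConvexBody K)
    (hL : IsConvexBody L) (hKL : K ⊆ L)
    (hvol : (1 - 1 / (20 * ((n : ℝ) + 2))) * (volume L).toReal ≤ (volume K).toReal)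
    (hD : Dn L ≤ 243 / 256 * simpC n) : Dn K < simpC n := by
  have hV := vol_pos hK
  have hW := vol_pos hL
  have h1 := det_cov_le_of_subset (by omega) hK.2.1 hV hL hKL
  have hn0 : (0 : ℝ) < n := by exact_mod_cast hn
  set V := (volume K).toReal
  set W := (volume L).toReal
  set x : ℝ := 1 / (20 * ((n : ℝ) + 2)) with hx
  have hx0 : 0 < x := by positivity
  have hx1 : x ≤ 1 / 20 := by
    rw [hx]
    apply one_div_le_one_div_of_le (by norm_num)
    nlinarith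
  have hb : 1 + ((n + 2 : ℕ) : ℝ) * (-x) ≤ (1 + -x) ^ (n + 2) :=
    one_add_mul_le_pow (by linarith) (n + 2)
  have hxn : ((n : ℝ) + 2) * x = 1 / 20 := by
    rw [hx]; field_simp
  have hb2 : (19 / 20 : ℝ) ≤ (1 - x) ^ (n + 2) := by
    have e : (1 : ℝ) + -x = 1 - x := by ring
    rw [e] at hb
    push_cast at hb
    linarith
  have hWV : W / V ≤ 1 / (1 - x) := by
    rw [div_le_div_iff₀ hV (by linarith)]
    linarith
  have h2 : Dn K ≤ (W / V) ^ (n + 2) * Dn L := by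
    unfold Dn
    change (covMatrix K).det / V ^ 2 ≤ (W / V) ^ (n + 2) * ((covMatrix L).det / W ^ 2)
    rw [div_le_iff₀ (by positivity)]
    refine h1.trans (le_of_eq ?_)
    rw [pow_add]
    field_simp
  have h3 : (W / V) ^ (n + 2) ≤ 20 / 19 := by
    refine (pow_le_pow_left₀ (by positivity) hWV (n + 2)).trans ?_
    rw [div_pow, one_pow, div_le_div_iff₀ (by
      have : 0 < 1 - x := by linarith
      positivity) (by norm_num)]
    linarith
  have hDL : 0 ≤ Dn L := div_nonneg (covMatrix_posSemidef hL.2.1).det_nonneg (by positivity)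
  have hC := simpC_pos n
  calc Dn K ≤ (W / V) ^ (n + 2) * Dn L := h2
    _ ≤ 20 / 19 * Dn L := mul_le_mul_of_nonneg_right h3 hDL
    _ ≤ 20 / 19 * (243 / 256 * simpC n) := mul_le_mul_of_nonneg_left hD (by norm_num)
    _ < simpC n := by nlinarith

/-- Convex bodies nearly filling an unconditional sum of at least two bodies which satisfy the
conjecture. -/
theorem Dn_nearSum (hm : 2 ≤ m) (hd : ∀ i, 1 ≤ d i) (hU : IsConvexBody U) (hu : Uncond U)
    {L : ∀ i, Set (Fin (d i) → ℝ)} (hL : ∀ i, IsConvexBody (L i))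
    (hc : ∀ i, centroid (L i) = 0) (hD : ∀ i, Dn (L i) ≤ simpC (d i))
    {K : Set (Fin (∑ i, d i) → ℝ)} (hK : IsConvexBody K) (hsub : K ⊆ uncSum d L U)
    (hvol : (1 - 1 / (20 * (((∑ i, d i : ℕ) : ℝ) + 2))) * (volume (uncSum d L U)).toReal ≤
      (volume K).toReal) : Dn K < simpC (∑ i, d i) := by
  have hn : 1 ≤ ∑ i, d i := by
    have h0 : 0 < m := by omega
    exact (hd ⟨0, h0⟩).trans (Finset.single_le_sum (f := d)
      (fun _ _ => Nat.zero_le _) (Finset.mem_univ _))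
  exact Dn_near hn hK (body_uncSum hd hU hu hL hc) hsub hvol (Dn_uncSum_le2 hm hd hU hu hL hc hD)

end Vale.Agent.P254.US
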