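import Vale.Agent.P254.US.Defs

/-! Unconditional sums, leaf (A): the measures `nu` and the pushforward of `f dx` under a gauge. -/

open MeasureTheory Set Matrix Module
open scoped Pointwise

namespace Vale.Agent.P254.US

variable {m k n : ℕ}

theorem nu_Iic (q : ℕ) {r : ℝ} (hr : 0 ≤ r) : nu q (Iic r) = ENNReal.ofReal (r ^ q) := by
  have h1 : (fun x : Fin q → ℝ => ‖x‖) ⁻¹' Iic r = Metric.closedBall 0 r := by
    ext x
    simp
  unfold nu
  rw [Measure.smul_apply, Measure.map_apply continuous_norm.measurable measurableSet_Iic, h1,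
    Real.volume_pi_closedBall _ hr, smul_eq_mul, ← ENNReal.ofReal_mul (by positivity), Fintype.card_fin,
    ← mul_pow]
  congr 2
  ring

theorem nu_Iio_zero (q : ℕ) : nu q (Iio 0) = 0 := by
  have h1 : (fun x : Fin q → ℝ => ‖x‖) ⁻¹' Iio 0 = ∅ := by
    ext x
    simp
  unfold nu
  rw [Measure.smul_apply, Measure.map_apply continuous_norm.measurable measurableSet_Iio, h1,
    measure_empty, smul_zero]

namespace IsG

variable {g : (Fin k → ℝ) → ℝ}

theorem compact_le (hg : IsG g) (s : ℝ) : IsCompact {x | g x ≤ s} := by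
  obtain ⟨c, hc, hcg⟩ := hg.coer
  refine Metric.isCompact_of_isClosed_isBounded (isClosed_le hg.cont continuous_const) ?_
  refine (Metric.isBounded_closedBall (x := (0 : Fin k → ℝ)) (r := s / c)).subset fun x hx => ?_
  have h1 := hcg x
  have h2 : g x ≤ s := hx
  rw [mem_closedBall_zero_iff, le_div_iff₀ hc]
  linarith

theorem le_zero_iff (hg : IsG g) (x : Fin k → ℝ) : g x ≤ 0 ↔ x = 0 := by
  obtain ⟨c, hc, hcg⟩ := hg.coer
  constructor
  · intro h
    have h1 := hcg x
    have h2 : ‖x‖ ≤ 0 := by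
      by_contra h3
      have h4 : 0 < ‖x‖ := not_le.mp h3
      nlinarith [mul_pos hc h4]
    exact norm_le_zero_iff.mp h2
  · rintro rfl
    have := hg.smul 0 le_rfl 0
    rw [zero_smul, zero_mul] at this
    exact this.le

theorem smul_ball (hg : IsG g) {s : ℝ} (hs : 0 < s) : {x | g x ≤ s} = s • ball g := by
  ext x
  rw [mem_smul_set_iff_inv_smul_mem₀ hs.ne']
  show g x ≤ s ↔ g (s⁻¹ • x) ≤ 1
  rw [hg.smul _ (inv_nonneg.mpr hs.le), inv_mul_le_iff₀ hs, mul_one]

/-- scaling of the integral of a homogeneous function -/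
theorem int_le (hg : IsG g) {p : ℕ} {f : (Fin k → ℝ) → ℝ}
    (hfh : ∀ t : ℝ, 0 ≤ t → ∀ x, f (t • x) = t ^ p * f x) {s : ℝ} (hs : 0 ≤ s) :
    ∫ x in {x | g x ≤ s}, f x = s ^ (k + p) * ∫ x in ball g, f x := by
  rcases hs.lt_or_eq with hs | rfl
  · have h1 := Measure.setIntegral_comp_smul_of_pos (volume : Measure (Fin k → ℝ)) f (ball g) hs
    have h2 : ∫ x in ball g, f (s • x) = s ^ p * ∫ x in ball g, f x := by
      rw [← integral_const_mul]
      exact integral_congr_ae (Filter.Eventually.of_forall fun x => hfh s hs.le x)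
    rw [h2, finrank_fintype_fun_eq_card, Fintype.card_fin, smul_eq_mul] at h1
    rw [hg.smul_ball hs, pow_add]
    have h3 : (s ^ k)⁻¹ * (s ^ k) = 1 := inv_mul_cancel₀ (by positivity)
    have h4 : s ^ k * (s ^ p * ∫ x in ball g, f x) = s ^ k * ((s ^ k)⁻¹ * ∫ x in s • ball g, f x) := by
      rw [h1]
    calc ∫ x in s • ball g, f x = ((s ^ k)⁻¹ * (s ^ k)) * ∫ x in s • ball g, f x := by rw [h3, one_mul]
      _ = s ^ k * ((s ^ k)⁻¹ * ∫ x in s • ball g, f x) := by ring
      _ = _ := by rw [← h4]; ring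
  · rcases Nat.eq_zero_or_pos k with rfl | hk
    · have hb : ball g = univ := by
        ext x
        have : x = 0 := Subsingleton.elim _ _
        have h0 := (hg.le_zero_iff x).mpr this
        simp only [ball, mem_ofPred_eq, mem_univ, iff_true]
        linarith
      have hz : {x | g x ≤ 0} = (univ : Set (Fin 0 → ℝ)) := by
        ext x
        simp only [mem_ofPred_eq, mem_univ, iff_true]
        exact (hg.le_zero_iff x).mpr (Subsingleton.elim _ _)
      rw [hb, hz]
      rcases Nat.eq_zero_or_pos p with rfl | hp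
      · simp
      · have hf : ∀ x : Fin 0 → ℝ, f x = 0 := by
          intro x
          have h1 := hfh 0 le_rfl x
          rw [zero_pow hp.ne', zero_mul] at h1
          have h2 : x = (0 : ℝ) • x := Subsingleton.elim _ _
          rw [h2]
          exact h1
        simp [hf]
    · have hz : {x | g x ≤ 0} = ({0} : Set (Fin k → ℝ)) := by
        ext x
        simp only [mem_ofPred_eq, mem_singleton_iff]
        exact hg.le_zero_iff x
      have hv : volume ({0} : Set (Fin k → ℝ)) = 0 := by
        rw [show ({0} : Set (Fin k → ℝ)) = Metric.closedBall 0 0 by simp,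
          Real.volume_pi_closedBall _ le_rfl]
        simp [hk.ne']
      rw [hz, Measure.restrict_eq_zero.mpr hv, integral_zero_measure, zero_pow (by omega), zero_mul]

end IsG

theorem map_g {g : (Fin k → ℝ) → ℝ} (hg : IsG g) {p : ℕ} {f : (Fin k → ℝ) → ℝ}
    (hfc : Continuous f) (hf0 : ∀ x, 0 ≤ f x)
    (hfh : ∀ t : ℝ, 0 ≤ t → ∀ x, f (t • x) = t ^ p * f x) {R : ℝ} (hR : 0 < R) :
    ((volume.restrict {x | g x ≤ R}).withDensity (fun x => ENNReal.ofReal (f x))).map g =
      ENNReal.ofReal (∫ x in ball g, f x) • (nu (k + p)).restrict (Iic R) := by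
  have hint : ∀ s, IntegrableOn f {x | g x ≤ s} := fun s =>
    hfc.continuousOn.integrableOn_compact (hg.compact_le s)
  have : IsFiniteMeasure ((volume.restrict {x | g x ≤ R}).withDensity (fun x => ENNReal.ofReal (f x))) :=
    isFiniteMeasure_withDensity_ofReal (hint R).2
  refine Measure.ext_of_Iic _ _ fun r => ?_
  have hset : g ⁻¹' Iic r ∩ {x | g x ≤ R} = {x | g x ≤ min r R} := by
    ext x
    simp
  rw [Measure.map_apply hg.cont.measurable measurableSet_Iic,
    withDensity_apply _ (hg.cont.measurable measurableSet_Iic),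
    Measure.restrict_restrict (hg.cont.measurable measurableSet_Iic), hset,
    ← ofReal_integral_eq_lintegral_ofReal (hint _) (Filter.Eventually.of_forall hf0),
    Measure.smul_apply, Measure.restrict_apply measurableSet_Iic, Iic_inter_Iic, smul_eq_mul]
  show _ = _ * nu (k + p) (Iic (min r R))
  rcases lt_or_ge (min r R) 0 with hs | hs
  · have h1 : {x | g x ≤ min r R} = (∅ : Set (Fin k → ℝ)) := by
      ext x
      simp only [mem_ofPred_eq, mem_empty_iff_false, iff_false, not_le]
      exact lt_of_lt_of_le hs (hg.nonneg x)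
    have h2 : nu (k + p) (Iic (min r R)) = 0 :=
      measure_mono_null (Iic_subset_Iio.mpr hs) (nu_Iio_zero _)
    rw [h1, h2]
    simp
  · rw [hg.int_le hfh hs, nu_Iic _ hs, ← ENNReal.ofReal_mul (integral_nonneg hf0), mul_comm]

end Vale.Agent.P254.US
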