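import Vale.Agent.P254.US.Defs

/-!
The decomposition of ℝⁿ, n = ∑ dᵢ, into blocks is measure preserving.
-/

open MeasureTheory Set Matrix

namespace Vale.Agent.P254.US

variable {m : ℕ}

/-- The decomposition of a vector into blocks. -/
noncomputable def blockEquiv (d : Fin m → ℕ) :
    (Fin (∑ i, d i) → ℝ) ≃ᵐ (∀ i, Fin (d i) → ℝ) :=
  (MeasurableEquiv.piCongrLeft (fun _ : (Σ i : Fin m, Fin (d i)) => ℝ)
    (finSigmaFinEquiv (n := d)).symm).trans
    (MeasurableEquiv.piCurry (fun (i : Fin m) (_ : Fin (d i)) => ℝ))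

theorem blockEquiv_apply (d : Fin m → ℕ) (x : Fin (∑ i, d i) → ℝ) :
    blockEquiv d x = block d x := by
  funext i j
  have h := Equiv.piCongrLeft_apply_apply (fun _ : (Σ i : Fin m, Fin (d i)) => ℝ)
    (finSigmaFinEquiv (n := d)).symm x (finSigmaFinEquiv ⟨i, j⟩)
  simp only [Equiv.symm_apply_apply] at h
  exact h

theorem blockEquiv_mp (d : Fin m → ℕ) : MeasurePreserving (blockEquiv d) := by
  have h1 : MeasurePreserving (MeasurableEquiv.piCongrLeft (fun _ : (Σ i : Fin m, Fin (d i)) => ℝ)
      (finSigmaFinEquiv (n := d)).symm) :=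
    volume_measurePreserving_piCongrLeft _ _
  have h2 : MeasurePreserving (MeasurableEquiv.piCurry (fun (i : Fin m) (_ : Fin (d i)) => ℝ)) := by
    have h3 : MeasurePreserving
        (MeasurableEquiv.piCurry (fun (i : Fin m) (_ : Fin (d i)) => ℝ)).symm := by
      refine ⟨MeasurableEquiv.measurable _, ?_⟩
      symm
      refine Measure.pi_eq fun s _ => ?_
      rw [MeasurableEquiv.map_apply]
      have e : (MeasurableEquiv.piCurry (fun (i : Fin m) (_ : Fin (d i)) => ℝ)).symm ⁻¹'
          (univ.pi s) = univ.pi fun i => univ.pi fun j => s ⟨i, j⟩ := by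
        ext y
        simp only [mem_preimage, mem_pi, mem_univ, true_imp_iff]
        constructor
        · intro h i j
          exact h ⟨i, j⟩
        · rintro h ⟨i, j⟩
          exact h i j
      rw [e, volume_pi_pi]
      simp only [volume_pi_pi]
      rw [Fintype.prod_sigma]
    exact h3.symm _
  exact h2.comp h1

end Vale.Agent.P254.US
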