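import Vale.Agent.P254.US.A
import Vale.Agent.P254.US.C

/-!
The master formula: integration of products of homogeneous functions over an unconditional sum.
-/

open MeasureTheory Set Matrix
open scoped ENNReal

namespace Vale.Agent.P254.US

variable {m k n : ℕ}

/-! ### generalities on product measures -/

theorem pi_withDensity' {ι : Type*} [Fintype ι] {X : ι → Type*} [∀ i, MeasurableSpace (X i)]
    (μ : ∀ i, Measure (X i)) [∀ i, SigmaFinite (μ i)] (f : ∀ i, X i → ℝ)
    (h0 : ∀ i x, 0 ≤ f i x) (hi : ∀ i, Integrable (f i) (μ i)) :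
    (Measure.pi fun i => (μ i).withDensity fun x => ENNReal.ofReal (f i x))
      = (Measure.pi μ).withDensity fun y => ENNReal.ofReal (∏ i, f i (y i)) := by
  have hsf : ∀ i, IsFiniteMeasure ((μ i).withDensity fun x => ENNReal.ofReal (f i x)) := fun i =>
    isFiniteMeasure_withDensity_ofReal (hi i).2
  refine Measure.pi_eq fun s hs => ?_
  rw [withDensity_apply _ (MeasurableSet.univ_pi hs), Measure.restrict_pi_pi,
    ← ofReal_integral_eq_lintegral_ofReal, integral_fintype_prod_eq_prod,
    ENNReal.ofReal_prod_of_nonneg]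
  · refine Finset.prod_congr rfl fun i _ => ?_
    rw [withDensity_apply _ (hs i), ← ofReal_integral_eq_lintegral_ofReal]
    · exact (hi i).restrict
    · exact ae_of_all _ (h0 i)
  · exact fun i _ => integral_nonneg (h0 i)
  · exact Integrable.fintype_prod_dep fun i => (hi i).restrict
  · exact ae_of_all _ fun y => Finset.prod_nonneg fun i _ => h0 i _

theorem pi_smul' {ι : Type*} [Fintype ι] {X : ι → Type*} [∀ i, MeasurableSpace (X i)]
    (μ : ∀ i, Measure (X i)) [∀ i, SigmaFinite (μ i)] (c : ι → ℝ) :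
    (Measure.pi fun i => ENNReal.ofReal (c i) • μ i)
      = (∏ i, ENNReal.ofReal (c i)) • Measure.pi μ := by
  have hs : ∀ i, SigmaFinite (ENNReal.ofReal (c i) • μ i) := fun i => by
    have h : ENNReal.ofReal (c i) • μ i = (Real.toNNReal (c i)) • μ i := rfl
    rw [h]
    infer_instance
  refine Measure.pi_eq fun s hs => ?_
  rw [Measure.smul_apply, Measure.pi_pi, smul_eq_mul, ← Finset.prod_mul_distrib]
  rfl

instance sf_nu (q : ℕ) : SigmaFinite (nu q) := by
  refine ⟨⟨⟨fun j : ℕ => Iic (j : ℝ), fun _ => trivial, fun j => ?_, ?_⟩⟩⟩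
  · rw [nu_Iic q (Nat.cast_nonneg j)]
    exact ENNReal.ofReal_lt_top
  · refine eq_univ_of_forall fun x => ?_
    obtain ⟨j, hj⟩ := exists_nat_ge x
    exact mem_iUnion.2 ⟨j, hj⟩

theorem IsG.isCompact {g : (Fin k → ℝ) → ℝ} (hg : IsG g) (R : ℝ) : IsCompact {x | g x ≤ R} := by
  obtain ⟨c, hc, h⟩ := hg.coer
  refine Metric.isCompact_of_isClosed_isBounded (isClosed_le hg.cont continuous_const) ?_
  refine (Metric.isBounded_closedBall (x := (0 : Fin k → ℝ)) (r := R / c)).subset fun x hx => ?_
  rw [mem_closedBall_zero_iff, le_div_iff₀ hc]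
  have := h x
  have h2 : g x ≤ R := hx
  linarith

theorem measurable_gmap {d : Fin m → ℕ} {g : ∀ i, (Fin (d i) → ℝ) → ℝ} (hg : ∀ i, IsG (g i)) :
    Measurable (fun (y : ∀ i, Fin (d i) → ℝ) i => g i (y i)) :=
  measurable_pi_lambda _ fun i => (hg i).cont.measurable.comp (measurable_pi_apply i)

theorem gSum_eq (d : Fin m → ℕ) (g : ∀ i, (Fin (d i) → ℝ) → ℝ) (U : Set (Fin m → ℝ)) :
    gSum d g U = blockEquiv d ⁻¹' {y | (fun i => g i (y i)) ∈ U} := by
  ext x
  simp only [gSum, mem_preimage, mem_ofPred_eq, blockEquiv_apply]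

theorem master0 (d : Fin m → ℕ) {g : ∀ i, (Fin (d i) → ℝ) → ℝ} (hg : ∀ i, IsG (g i))
    (p : Fin m → ℕ) {f : ∀ i, (Fin (d i) → ℝ) → ℝ} (hfc : ∀ i, Continuous (f i))
    (hf0 : ∀ i x, 0 ≤ f i x) (hfh : ∀ i (t : ℝ), 0 ≤ t → ∀ x, f i (t • x) = t ^ p i * f i x)
    {U : Set (Fin m → ℝ)} (hU : MeasurableSet U) (hUb : Bornology.IsBounded U) :
    ∫ x in gSum d g U, ∏ i, f i (block d x i) =
      (∏ i, ∫ x in ball (g i), f i x) * wt (fun i => d i + p i) U := by
  obtain ⟨R, hR0, hR⟩ : ∃ R : ℝ, 0 < R ∧ ∀ u ∈ U, ∀ i, u i ≤ R := by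
    obtain ⟨C, hC⟩ := hUb.exists_norm_le
    refine ⟨max C 1, by positivity, fun u hu i => ?_⟩
    exact (le_abs_self _).trans ((norm_le_pi_norm u i).trans ((hC u hu).trans (le_max_left _ _)))
  set S : ∀ i, Set (Fin (d i) → ℝ) := fun i => {x | g i x ≤ R} with hS
  have hSc : ∀ i, IsCompact (S i) := fun i => (hg i).isCompact R
  set A : Set (∀ i, Fin (d i) → ℝ) := {y | (fun i => g i (y i)) ∈ U} with hA
  have hAm : MeasurableSet A := measurable_gmap hg hU
  have hAS : A ⊆ univ.pi S := fun y hy i _ => hR _ hy i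
  have hfi : ∀ i, Integrable (f i) (volume.restrict (S i)) := fun i =>
    (hfc i).continuousOn.integrableOn_compact (hSc i)
  -- left side
  have h1 : ∫ x in gSum d g U, ∏ i, f i (block d x i) = ∫ y in A, ∏ i, f i (y i) := by
    rw [gSum_eq, ← (blockEquiv_mp d).setIntegral_preimage_emb
      (MeasurableEquiv.measurableEmbedding _) (fun y => ∏ i, f i (y i)) A]
    simp_rw [blockEquiv_apply]
    rfl
  -- the product measure
  have hPi := pi_withDensity' (fun i => (volume : Measure (Fin (d i) → ℝ)).restrict (S i)) f hf0 hfi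
  have hres : (Measure.pi fun i => (volume : Measure (Fin (d i) → ℝ)).restrict (S i)) =
      (volume : Measure (∀ i, Fin (d i) → ℝ)).restrict (univ.pi S) := by
    rw [volume_pi, Measure.restrict_pi_pi]
  have hint : IntegrableOn (fun y : ∀ i, Fin (d i) → ℝ => ∏ i, f i (y i)) A := by
    refine IntegrableOn.mono_set ?_ hAS
    refine ContinuousOn.integrableOn_compact (isCompact_univ_pi hSc) ?_
    exact (continuous_finsetProd _ fun i _ => (hfc i).comp (continuous_apply i)).continuousOn
  have h2 : (Measure.pi fun i => ((volume : Measure (Fin (d i) → ℝ)).restrict (S i)).withDensity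
      fun x => ENNReal.ofReal (f i x)) A = ENNReal.ofReal (∫ y in A, ∏ i, f i (y i)) := by
    rw [hPi, withDensity_apply _ hAm, hres, Measure.restrict_restrict hAm,
      inter_eq_left.2 hAS, ← ofReal_integral_eq_lintegral_ofReal hint]
    exact ae_of_all _ fun y => Finset.prod_nonneg fun i _ => hf0 i _
  have h3 : (Measure.pi fun i => ((volume : Measure (Fin (d i) → ℝ)).restrict (S i)).withDensity
      fun x => ENNReal.ofReal (f i x)) A =
      (∏ i, ENNReal.ofReal (∫ x in ball (g i), f i x)) * Measure.pi (fun i => nu (d i + p i)) U := by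
    have hfin : ∀ i, IsFiniteMeasure (((volume : Measure (Fin (d i) → ℝ)).restrict (S i)).withDensity
        fun x => ENNReal.ofReal (f i x)) := fun i => isFiniteMeasure_withDensity_ofReal (hfi i).2
    have e1 : A = (fun (y : ∀ i, Fin (d i) → ℝ) i => g i (y i)) ⁻¹' U := rfl
    rw [e1, ← Measure.map_apply (measurable_gmap hg) hU,
      Measure.pi_map_pi (fun i => (hg i).cont.measurable.aemeasurable)]
    have e2 : (fun i => (((volume : Measure (Fin (d i) → ℝ)).restrict (S i)).withDensity
        fun x => ENNReal.ofReal (f i x)).map (g i)) = fun i =>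
        ENNReal.ofReal (∫ x in ball (g i), f i x) • (nu (d i + p i)).restrict (Iic R) := by
      funext i
      exact map_g (hg i) (hfc i) (hf0 i) (hfh i) hR0
    have e3 : U ⊆ univ.pi (fun _ : Fin m => Iic R) := fun u hu i _ => hR u hu i
    rw [e2, pi_smul', Measure.smul_apply, smul_eq_mul, ← Measure.restrict_pi_pi,
      Measure.restrict_apply hU, inter_eq_left.2 e3]
  have hc0 : ∀ i, 0 ≤ ∫ x in ball (g i), f i x := fun i => integral_nonneg (hf0 i)
  have h4 := h2.symm.trans h3
  rw [h1]
  have h5 := congrArg ENNReal.toReal h4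
  rw [ENNReal.toReal_ofReal (integral_nonneg fun y => Finset.prod_nonneg fun i _ => hf0 i _),
    ENNReal.toReal_mul, ENNReal.toReal_prod] at h5
  rw [h5, wt]
  congr 1
  exact Finset.prod_congr rfl fun i _ => ENNReal.toReal_ofReal (hc0 i)

/-! ### signed functions -/

theorem prod_sub_expand (a b : Fin m → ℝ) :
    ∏ i, (a i - b i) = ∑ t ∈ (Finset.univ : Finset (Fin m)).powerset,
      (-1) ^ (Finset.univ \ t).card * ∏ i, (if i ∈ t then a i else b i) := by
  simp_rw [sub_eq_add_neg]
  rw [Finset.prod_add]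
  refine Finset.sum_congr rfl fun t _ => ?_
  have h1 : ∏ i ∈ Finset.univ \ t, (-b i) =
      (-1) ^ (Finset.univ \ t).card * ∏ i ∈ Finset.univ \ t, b i := by
    rw [← Finset.prod_const, ← Finset.prod_mul_distrib]
    exact Finset.prod_congr rfl fun i _ => by ring
  have h2 : ∏ i, (if i ∈ t then a i else b i) = (∏ i ∈ t, a i) * ∏ i ∈ Finset.univ \ t, b i := by
    rw [Finset.prod_ite]
    congr 1
    · refine Finset.prod_congr ?_ fun _ _ => rfl
      ext i; simp
    · refine Finset.prod_congr ?_ fun _ _ => rfl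
      ext i; simp
  rw [h1, h2]
  ring

theorem master (d : Fin m → ℕ) {g : ∀ i, (Fin (d i) → ℝ) → ℝ} (hg : ∀ i, IsG (g i))
    (p : Fin m → ℕ) {f : ∀ i, (Fin (d i) → ℝ) → ℝ} (hfc : ∀ i, Continuous (f i))
    (hfh : ∀ i (t : ℝ), 0 ≤ t → ∀ x, f i (t • x) = t ^ p i * f i x)
    {U : Set (Fin m → ℝ)} (hU : MeasurableSet U) (hUb : Bornology.IsBounded U)
    (hK : IsCompact (gSum d g U)) :
    ∫ x in gSum d g U, ∏ i, f i (block d x i) =
      (∏ i, ∫ x in ball (g i), f i x) * wt (fun i => d i + p i) U := by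
  classical
  let φ : Finset (Fin m) → ∀ i, (Fin (d i) → ℝ) → ℝ := fun t i x =>
    if i ∈ t then max (f i x) 0 else max (-f i x) 0
  have hφc : ∀ t i, Continuous (φ t i) := by
    intro t i
    by_cases h : i ∈ t
    · simp only [φ, h, if_true]
      exact (hfc i).max continuous_const
    · simp only [φ, h, if_false]
      exact (hfc i).neg.max continuous_const
  have hφ0 : ∀ t i x, 0 ≤ φ t i x := by
    intro t i x
    by_cases h : i ∈ t <;> simp [φ, h]
  have hφh : ∀ t i (s : ℝ), 0 ≤ s → ∀ x, φ t i (s • x) = s ^ p i * φ t i x := by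
    intro t i s hs x
    have h0 : (0 : ℝ) ≤ s ^ p i := by positivity
    by_cases h : i ∈ t
    · simp only [φ, h, if_true, hfh i s hs x]
      rw [mul_max_of_nonneg _ _ h0, mul_zero]
    · simp only [φ, h, if_false, hfh i s hs x]
      rw [mul_max_of_nonneg _ _ h0, mul_zero, mul_neg]
  have hball : ∀ i, IsCompact (ball (g i)) := fun i => (hg i).isCompact 1
  have hsub : ∀ i x, f i x = max (f i x) 0 - max (-f i x) 0 := fun i x =>
    (max_zero_sub_max_neg_zero_eq_self _).symm
  have hbc : ∀ i, Continuous fun x : Fin (∑ i, d i) → ℝ => block d x i := fun i =>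
    continuous_pi fun j => continuous_apply _
  have hcont : ∀ t, Continuous fun x : Fin (∑ i, d i) → ℝ => ∏ i, φ t i (block d x i) := fun t =>
    continuous_finsetProd _ fun i _ => (hφc t i).comp (hbc i)
  have h1 : ∀ x : Fin (∑ i, d i) → ℝ, ∏ i, f i (block d x i) =
      ∑ t ∈ (Finset.univ : Finset (Fin m)).powerset,
        (-1) ^ (Finset.univ \ t).card * ∏ i, φ t i (block d x i) := by
    intro x
    rw [← prod_sub_expand (fun i => max (f i (block d x i)) 0)
      (fun i => max (-f i (block d x i)) 0)]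
    exact Finset.prod_congr rfl fun i _ => hsub i _
  simp_rw [h1]
  rw [integral_finsetSum _ fun t _ =>
    ((hcont t).continuousOn.integrableOn_compact hK).const_mul _]
  have h2 : ∀ t, ∫ x in gSum d g U, (-1) ^ (Finset.univ \ t).card *
      ∏ i, φ t i (block d x i) = (-1) ^ (Finset.univ \ t).card *
      (∏ i, (if i ∈ t then ∫ x in ball (g i), max (f i x) 0 else
        ∫ x in ball (g i), max (-f i x) 0)) * wt (fun i => d i + p i) U := by
    intro t
    rw [integral_const_mul, master0 d hg p (hφc t) (hφ0 t) (hφh t) hU hUb, mul_assoc]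
    congr 2
    refine Finset.prod_congr rfl fun i _ => ?_
    by_cases h : i ∈ t
    · simp only [φ, h, if_true]
    · simp only [φ, h, if_false]
  simp_rw [h2]
  rw [← Finset.sum_mul, ← prod_sub_expand]
  congr 1
  refine Finset.prod_congr rfl fun i _ => ?_
  have i1 : IntegrableOn (fun x => max (f i x) 0) (ball (g i)) :=
    ((hfc i).max continuous_const).continuousOn.integrableOn_compact (hball i)
  have i2 : IntegrableOn (fun x => max (-f i x) 0) (ball (g i)) :=
    ((hfc i).neg.max continuous_const).continuousOn.integrableOn_compact (hball i)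
  rw [← integral_sub i1 i2]
  exact integral_congr_ae (ae_of_all _ fun x => (hsub i x).symm)

end Vale.Agent.P254.US
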