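import Vale.Agent.P254.US.Defs
import Vale.Agent.P254.Bdl.B4

/-!
Unconditional sums of gauges: they are convex bodies.
-/

open MeasureTheory Set

namespace Vale.Agent.P254.US

open Unc

namespace DD

variable {m : ℕ}

/-- the vector of the gauges of the blocks -/
def gv (d : Fin m → ℕ) (g : ∀ i, (Fin (d i) → ℝ) → ℝ) (x : Fin (∑ i, d i) → ℝ) : Fin m → ℝ :=
  fun i => g i (block d x i)

theorem block_combo (d : Fin m → ℕ) (x y : Fin (∑ i, d i) → ℝ) (a b : ℝ) (i : Fin m) :
    block d (a • x + b • y) i = a • block d x i + b • block d y i := rfl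

theorem cont_block (d : Fin m → ℕ) (i : Fin m) :
    Continuous fun x : Fin (∑ i, d i) → ℝ => block d x i :=
  continuous_pi fun _ => continuous_apply _

theorem cont_gv (d : Fin m → ℕ) {g : ∀ i, (Fin (d i) → ℝ) → ℝ} (hg : ∀ i, IsG (g i)) :
    Continuous (gv d g) :=
  continuous_pi fun i => (hg i).cont.comp (cont_block d i)

theorem gv_zero (d : Fin m → ℕ) {g : ∀ i, (Fin (d i) → ℝ) → ℝ} (hg : ∀ i, IsG (g i)) :
    gv d g 0 = 0 := by
  funext i
  have h := (hg i).smul 0 le_rfl 0
  rw [smul_zero, zero_mul] at h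
  exact h

theorem zero_mem {U : Set (Fin m → ℝ)} (hU : IsConvexBody U) (hu : Uncond U) :
    (0 : Fin m → ℝ) ∈ interior U := by
  obtain ⟨u, hu1⟩ := hU.2.2
  have h1 : -u ∈ U := hu u (interior_subset hu1) (-u) fun i => by rw [Pi.neg_apply, abs_neg]
  have h2 := hU.1.combo_interior_self_mem_interior hu1 h1 (a := 1 / 2) (b := 1 / 2) (by norm_num)
    (by norm_num) (by norm_num)
  rwa [smul_neg, add_neg_cancel] at h2

end DD

open DD in
theorem body_gSum {m : ℕ} (d : Fin m → ℕ) (hd : ∀ i, 1 ≤ d i) {g : ∀ i, (Fin (d i) → ℝ) → ℝ}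
    (hg : ∀ i, IsG (g i)) {U : Set (Fin m → ℝ)} (hU : IsConvexBody U) (hu : Uncond U) :
    IsConvexBody (gSum d g U) := by
  have hc := cont_gv d hg
  have he : gSum d g U = gv d g ⁻¹' U := rfl
  refine ⟨?_, ?_, ?_⟩
  · intro x hx y hy a b ha hb hab
    have h := hU.1 (show gv d g x ∈ U from hx) (show gv d g y ∈ U from hy) ha hb hab
    refine FB.solid hU.1 hu h fun i => ?_
    have h0 := (hg i).nonneg (block d (a • x + b • y) i)
    have hx0 := (hg i).nonneg (block d x i)
    have hy0 := (hg i).nonneg (block d y i)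
    have h1 : g i (block d (a • x + b • y) i) ≤ a * g i (block d x i) + b * g i (block d y i) := by
      rw [block_combo, ← (hg i).smul a ha, ← (hg i).smul b hb]
      exact (hg i).add _ _
    rw [abs_of_nonneg h0]
    exact h1.trans (le_abs_self _)
  · rw [he]
    refine Metric.isCompact_of_isClosed_isBounded (hU.2.1.isClosed.preimage hc) ?_
    obtain ⟨R, hR⟩ := isBounded_iff_forall_norm_le.1 hU.2.1.isBounded
    choose c hc0 hcx using fun i => (hg i).coer
    refine isBounded_iff_forall_norm_le.2 ⟨∑ i, |R| / c i, fun x hx => ?_⟩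
    have hpos : ∀ i, 0 ≤ |R| / c i := fun i => div_nonneg (abs_nonneg R) (hc0 i).le
    refine (pi_norm_le_iff_of_nonneg (Finset.sum_nonneg fun i _ => hpos i)).2 fun s => ?_
    obtain ⟨⟨i, j⟩, rfl⟩ := finSigmaFinEquiv.surjective s
    have h1 : ‖x (finSigmaFinEquiv ⟨i, j⟩)‖ ≤ ‖block d x i‖ := norm_le_pi_norm (block d x i) j
    have h2 : c i * ‖block d x i‖ ≤ |R| := by
      have h3 : |gv d g x i| ≤ ‖gv d g x‖ := norm_le_pi_norm (gv d g x) i
      have h4 := hcx i (block d x i)
      have h5 : g i (block d x i) ≤ |gv d g x i| := le_abs_self _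
      have h6 := hR _ hx
      have h7 := le_abs_self R
      linarith
    have h3 : ‖block d x i‖ ≤ |R| / c i := by
      rw [le_div_iff₀ (hc0 i), mul_comm]
      exact h2
    exact h1.trans (h3.trans (Finset.single_le_sum (f := fun i => |R| / c i)
      (fun i _ => hpos i) (Finset.mem_univ i)))
  · refine ⟨0, interior_maximal (t := gv d g ⁻¹' interior U)
      (fun x hx => show gv d g x ∈ U from interior_subset (show gv d g x ∈ interior U from hx))
      (isOpen_interior.preimage hc) ?_⟩
    rw [mem_preimage, gv_zero d hg]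
    exact zero_mem hU hu

end Vale.Agent.P254.US
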