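import Vale.Agent.P254.Defs

/-!
Unconditional sums of convex bodies.
-/

namespace Vale.Agent.P254

/-- The `i`-th block of a vector of `ℝⁿ`, `n = ∑ dᵢ`. -/
def block {m : ℕ} (d : Fin m → ℕ) (x : Fin (∑ i, d i) → ℝ) (i : Fin m) : Fin (d i) → ℝ :=
  fun j => x (finSigmaFinEquiv ⟨i, j⟩)

/-- The `U`-sum of the sets `L i ⊆ ℝ^(d i)`: the set of the `x = (x₁, …, x_m)` such that the vector
of the gauges `(‖x₁‖_{L 1}, …, ‖x_m‖_{L m})` lies in `U`. -/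
def uncSum {m : ℕ} (d : Fin m → ℕ) (L : ∀ i, Set (Fin (d i) → ℝ)) (U : Set (Fin m → ℝ)) :
    Set (Fin (∑ i, d i) → ℝ) :=
  {x | (fun i => gauge (L i) (block d x i)) ∈ U}

end Vale.Agent.P254
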