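import Vale.Agent.P254.Defs
import Vale.Agent.P254.Unc.FinDefs
import Vale.Agent.P254.US.SumDefs

/-!
Unconditional sums of convex bodies: definitions.
-/

open MeasureTheory Set Matrix

namespace Vale.Agent.P254

namespace US

/-- gauge functions -/
structure IsG {k : ℕ} (g : (Fin k → ℝ) → ℝ) : Prop where
  nonneg : ∀ x, 0 ≤ g x
  smul : ∀ t : ℝ, 0 ≤ t → ∀ x, g (t • x) = t * g x
  add : ∀ x y, g (x + y) ≤ g x + g y
  cont : Continuous g
  coer : ∃ c : ℝ, 0 < c ∧ ∀ x, c * ‖x‖ ≤ g x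

/-- unit ball of a gauge function -/
def ball {k : ℕ} (g : (Fin k → ℝ) → ℝ) : Set (Fin k → ℝ) := {x | g x ≤ 1}

/-- the `U`-sum of the unit balls -/
def gSum {m : ℕ} (d : Fin m → ℕ) (g : ∀ i, (Fin (d i) → ℝ) → ℝ) (U : Set (Fin m → ℝ)) :
    Set (Fin (∑ i, d i) → ℝ) :=
  {x | (fun i => g i (block d x i)) ∈ U}

/-- the measure `q r^(q-1) dr` on `(0, ∞)` -/
noncomputable def nu (q : ℕ) : Measure ℝ :=
  ENNReal.ofReal ((2 : ℝ)⁻¹ ^ q) • (volume : Measure (Fin q → ℝ)).map (fun x => ‖x‖)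

/-- weighted volume of `U` -/
noncomputable def wt {m : ℕ} (q : Fin m → ℕ) (U : Set (Fin m → ℝ)) : ℝ :=
  (Measure.pi (fun i => nu (q i)) U).toReal

end US

end Vale.Agent.P254
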