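import Vale.Agent.P254.US.Defs

/-! Unconditional sums, leaf (E): the centroid is an interior point; the gauge of a convex body. -/

open MeasureTheory Set Matrix Topology

namespace Vale.Agent.P254.US

variable {n : ℕ}

theorem centroid_mem_interior {K : Set (Fin n → ℝ)} (hK : IsConvexBody K) :
    centroid K ∈ interior K := by
  obtain ⟨hconv, hcomp, hne⟩ := hK
  by_contra hc
  obtain ⟨f, hf⟩ := geometric_hahn_banach_open_point hconv.interior isOpen_interior hc
  have hvol : 0 < volume (interior K) := isOpen_interior.measure_pos volume hne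
  have hfin : volume K ≠ ⊤ := hcomp.measure_lt_top.ne
  have hpos : 0 < (volume K).toReal :=
    ENNReal.toReal_pos (hvol.trans_le (measure_mono interior_subset)).ne' hfin
  have hle : ∀ x ∈ K, f x ≤ f (centroid K) := by
    intro x hx
    have h1 : x ∈ closure (interior K) := by
      rw [hconv.closure_interior_eq_closure_of_nonempty_interior hne]
      exact subset_closure hx
    exact closure_minimal (fun a ha => (hf a ha).le) (isClosed_le f.continuous continuous_const) h1
  have hsum : ∀ x : Fin n → ℝ, f x = ∑ i, x i * f (Pi.single i 1) := by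
    intro x
    conv_lhs => rw [pi_eq_sum_univ' x]
    simp [map_sum]
  have hint : ∀ i, IntegrableOn (fun x : Fin n → ℝ => x i * f (Pi.single i 1)) K := fun i =>
    ((continuous_apply i).mul continuous_const).continuousOn.integrableOn_compact hcomp
  have hfint : IntegrableOn (fun x : Fin n → ℝ => f x) K :=
    f.continuous.continuousOn.integrableOn_compact hcomp
  have hI : ∫ x in K, f x = (volume K).toReal * f (centroid K) := by
    have h1 : ∫ x in K, f x = ∫ x in K, ∑ i, x i * f (Pi.single i 1) :=
      integral_congr_ae (Filter.Eventually.of_forall fun x => hsum x)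
    rw [h1, integral_finsetSum _ (fun i _ => hint i), hsum (centroid K), Finset.mul_sum]
    refine Finset.sum_congr rfl fun i _ => ?_
    rw [integral_mul_const]
    unfold centroid
    field_simp
  have hcst : Integrable (fun _ : Fin n → ℝ => f (centroid K)) (volume.restrict K) :=
    integrableOn_const hfin
  have hzero : ∫ x in K, (f (centroid K) - f x) = 0 := by
    rw [integral_sub hcst hfint, hI]
    simp [Measure.real]
  have hnn : 0 ≤ᵐ[volume.restrict K] fun x => f (centroid K) - f x := by
    filter_upwards [ae_restrict_mem hcomp.measurableSet] with x hx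
    have := hle x hx
    simp only [Pi.zero_apply]
    linarith
  have hint2 : Integrable (fun x => f (centroid K) - f x) (volume.restrict K) :=
    hcst.sub hfint
  have hae := (integral_eq_zero_iff_of_nonneg_ae hnn hint2).1 hzero
  have hae2 : ∀ᵐ x ∂(volume.restrict K), x ∉ interior K := by
    filter_upwards [hae] with x hx hxi
    have := hf x hxi
    simp only [Pi.zero_apply] at hx
    linarith
  rw [ae_iff] at hae2
  simp only [not_not, ofPred_mem_eq] at hae2
  rw [Measure.restrict_apply isOpen_interior.measurableSet, inter_eq_left.2 interior_subset] at hae2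
  exact hvol.ne' hae2

theorem isG_gauge {K : Set (Fin n → ℝ)} (hK : IsConvexBody K) (h0 : (0 : Fin n → ℝ) ∈ interior K) :
    IsG (gauge K) ∧ ball (gauge K) = K := by
  obtain ⟨hconv, hcomp, -⟩ := hK
  have hnhds : K ∈ 𝓝 (0 : Fin n → ℝ) := mem_interior_iff_mem_nhds.1 h0
  have habs : Absorbent ℝ K := absorbent_nhds_zero hnhds
  refine ⟨⟨fun x => gauge_nonneg x, fun t ht x => ?_, fun x y => gauge_add_le hconv habs x y,
    continuous_gauge hconv hnhds, ?_⟩, ?_⟩
  · rw [gauge_smul_of_nonneg ht, smul_eq_mul]
  · obtain ⟨R, hR⟩ := hcomp.isBounded.subset_closedBall (0 : Fin n → ℝ)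
    have hR1 : K ⊆ Metric.closedBall 0 (max R 1) :=
      hR.trans (Metric.closedBall_subset_closedBall (le_max_left _ _))
    have hpos : 0 < max R 1 := lt_of_lt_of_le one_pos (le_max_right _ _)
    refine ⟨(max R 1)⁻¹, inv_pos.2 hpos, fun x => ?_⟩
    have := le_gauge_of_subset_closedBall habs hpos.le hR1 (x := x)
    rwa [div_eq_inv_mul] at this
  · ext x
    unfold ball
    rw [mem_ofPred_eq, gauge_le_one_iff_mem_closure hconv hnhds, hcomp.isClosed.closure_eq]

end Vale.Agent.P254.US
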