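import Vale.Agent.P254.US.Defs

/-!
Unconditional sums: the sup norm as a gauge function.
-/

open MeasureTheory Set Matrix

namespace Vale.Agent.P254.US

open Unc

variable {m k n : ℕ}

theorem isG_sup (k : ℕ) : IsG (fun x : Fin k → ℝ => ‖x‖) where
  nonneg x := norm_nonneg x
  smul t ht x := by
    rw [norm_smul, Real.norm_eq_abs, abs_of_nonneg ht]
  add x y := norm_add_le x y
  cont := continuous_norm
  coer := ⟨1, one_pos, fun x => by rw [one_mul]⟩

theorem ball_sup_eq (k : ℕ) : ball (fun x : Fin k → ℝ => ‖x‖) = Set.pi univ (fun _ => Icc (-1 : ℝ) 1) := by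
  ext x
  simp only [ball, Set.mem_ofPred_eq, Set.mem_pi, mem_univ, true_implies, mem_Icc]
  rw [pi_norm_le_iff_of_nonneg zero_le_one]
  refine forall_congr' fun i => ?_
  rw [Real.norm_eq_abs, abs_le]

theorem vol_sup (k : ℕ) : (volume (ball (fun x : Fin k → ℝ => ‖x‖))).toReal = 2 ^ k := by
  rw [ball_sup_eq, volume_pi_pi]
  simp only [Real.volume_Icc, Finset.prod_const, Finset.card_univ, Fintype.card_fin, ENNReal.toReal_pow]
  congr 1
  rw [ENNReal.toReal_ofReal (by norm_num)]
  norm_num

theorem int_abs_one : ∫ t in Icc (-1 : ℝ) 1, |t| = 1 := by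
  rw [integral_Icc_eq_integral_Ioc, ← intervalIntegral.integral_of_le (by norm_num)]
  have h1 : IntervalIntegrable (fun t : ℝ => |t|) volume (-1) 0 := continuous_abs.intervalIntegrable _ _
  have h2 : IntervalIntegrable (fun t : ℝ => |t|) volume 0 1 := continuous_abs.intervalIntegrable _ _
  rw [← intervalIntegral.integral_add_adjacent_intervals h1 h2]
  have e1 : ∫ t in (-1 : ℝ)..0, |t| = ∫ t in (-1 : ℝ)..0, -t := by
    refine intervalIntegral.integral_congr fun t ht => ?_
    rw [uIcc_of_le (by norm_num)] at ht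
    exact abs_of_nonpos ht.2
  have e2 : ∫ t in (0 : ℝ)..1, |t| = ∫ t in (0 : ℝ)..1, t := by
    refine intervalIntegral.integral_congr fun t ht => ?_
    rw [uIcc_of_le (by norm_num)] at ht
    exact abs_of_nonneg ht.1
  rw [e1, e2, intervalIntegral.integral_neg, integral_id, integral_id]
  norm_num

theorem int_sup (a : Fin k) :
    ∫ x in ball (fun x : Fin k → ℝ => ‖x‖), |x a| = 2 ^ k / 2 := by
  rw [ball_sup_eq]
  have hr : (volume : Measure (Fin k → ℝ)).restrict (Set.pi univ (fun _ => Icc (-1 : ℝ) 1)) =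
      Measure.pi (fun _ : Fin k => (volume : Measure ℝ).restrict (Icc (-1 : ℝ) 1)) := by
    rw [volume_pi, Measure.restrict_pi_pi]
  rw [hr]
  have hf : ∀ x : Fin k → ℝ, |x a| = ∏ i, (if i = a then |x i| else 1) := by
    intro x
    rw [Finset.prod_ite_eq' Finset.univ a (fun i => |x i|)]
    simp
  simp only [hf]
  rw [integral_fintype_prod_eq_prod (𝕜 := ℝ) (fun i : Fin k => fun t : ℝ => if i = a then |t| else 1)]
  have h1 : ∀ i : Fin k, ∫ t, (if i = a then |t| else 1) ∂((volume : Measure ℝ).restrict (Icc (-1 : ℝ) 1))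
      = if i = a then 1 else 2 := by
    intro i
    by_cases h : i = a
    · simp only [h, if_true]
      exact int_abs_one
    · simp only [h, if_false]
      simp
      norm_num
  simp only [h1]
  rw [← Finset.mul_prod_erase Finset.univ _ (Finset.mem_univ a), if_pos rfl, one_mul]
  rw [Finset.prod_congr rfl (fun i hi => if_neg (Finset.ne_of_mem_erase hi)), Finset.prod_const,
    Finset.card_erase_of_mem (Finset.mem_univ a), Finset.card_univ, Fintype.card_fin]
  have hk : 0 < k := a.pos
  obtain ⟨j, rfl⟩ : ∃ j, k = j + 1 := ⟨k - 1, by omega⟩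
  rw [Nat.add_sub_cancel, pow_succ]
  ring

theorem uncond_sup (d : Fin m → ℕ) {U : Set (Fin m → ℝ)} :
    Uncond (gSum d (fun _ x => ‖x‖) U) := by
  intro x hx y hy
  have : (fun i => ‖block d y i‖) = (fun i => ‖block d x i‖) := by
    funext i
    simp only [Pi.norm_def]
    congr 2
    funext j
    refine NNReal.eq ?_
    simp only [coe_nnnorm, Real.norm_eq_abs]
    exact hy _
  show (fun i => ‖block d y i‖) ∈ U
  rw [this]
  exact hx

end Vale.Agent.P254.US
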