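import Vale.Agent.P254.US.Defs
import Vale.Agent.P254.Bdl.B2
import Vale.Agent.P254.Bdl.B4
import Vale.Agent.P254.Bdl.B17

/-!
P254, unconditional sums: moments of the cross-polytope (leaf F2).
-/

open MeasureTheory Set Matrix

namespace Vale.Agent.P254.US

open Unc

variable {m k n : ℕ}

theorem isG_one (k : ℕ) : IsG (fun x : Fin k → ℝ => ∑ j, |x j|) where
  nonneg x := Finset.sum_nonneg fun j _ => abs_nonneg _
  smul t ht x := by
    simp only [Pi.smul_apply, smul_eq_mul, abs_mul, abs_of_nonneg ht, Finset.mul_sum]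
  add x y := by
    simp only [Pi.add_apply]
    rw [← Finset.sum_add_distrib]
    exact Finset.sum_le_sum fun j _ => abs_add_le _ _
  cont := by fun_prop
  coer := by
    refine ⟨1, one_pos, fun x => ?_⟩
    rw [one_mul, pi_norm_le_iff_of_nonneg (Finset.sum_nonneg fun j _ => abs_nonneg _)]
    intro i
    rw [Real.norm_eq_abs]
    exact Finset.single_le_sum (f := fun j => |x j|) (fun j _ => abs_nonneg _) (Finset.mem_univ i)

namespace F2

lemma uncB (k : ℕ) : Uncond (ball (fun x : Fin k → ℝ => ∑ j, |x j|)) := by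
  intro x hx y hy
  have : ∑ j, |y j| = ∑ j, |x j| := Finset.sum_congr rfl fun j _ => hy j
  change ∑ j, |y j| ≤ 1
  rw [this]
  exact hx

lemma inter_orth (k : ℕ) :
    ball (fun x : Fin k → ℝ => ∑ j, |x j|) ∩ {x | ∀ i, 0 ≤ x i} = stdS k := by
  ext x
  constructor
  · rintro ⟨h1, h2⟩
    refine ⟨h2, ?_⟩
    have : ∑ j, |x j| = ∑ j, x j := Finset.sum_congr rfl fun j _ => abs_of_nonneg (h2 j)
    rw [← this]
    exact h1
  · rintro ⟨h2, h1⟩
    refine ⟨?_, h2⟩
    have : ∑ j, |x j| = ∑ j, x j := Finset.sum_congr rfl fun j _ => abs_of_nonneg (h2 j)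
    change ∑ j, |x j| ≤ 1
    rw [this]
    exact h1

lemma compB (k : ℕ) : IsCompact (ball (fun x : Fin k → ℝ => ∑ j, |x j|)) := by
  refine Metric.isCompact_of_isClosed_isBounded ?_ ?_
  · exact isClosed_le (isG_one k).cont continuous_const
  · refine (Metric.isBounded_iff_subset_closedBall 0).2 ⟨1, fun x hx => ?_⟩
    rw [mem_closedBall_zero_iff, pi_norm_le_iff_of_nonneg zero_le_one]
    intro i
    rw [Real.norm_eq_abs]
    exact (Finset.single_le_sum (f := fun j => |x j|) (fun j _ => abs_nonneg _)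
      (Finset.mem_univ i)).trans hx

end F2

open F2

theorem vol_one (k : ℕ) :
    (volume (ball (fun x : Fin k → ℝ => ∑ j, |x j|))).toReal = 2 ^ k / (k.factorial : ℝ) := by
  have hfin : volume (ball (fun x : Fin k → ℝ => ∑ j, |x j|)) ≠ ⊤ := (compB k).measure_lt_top.ne
  have h := FB.reduct_univ (uncB k) (f := fun _ => (1 : ℝ)) (integrableOn_const hfin)
    (fun _ _ => rfl)
  rw [inter_orth, setIntegral_const, setIntegral_const] at h
  simp only [Measure.real, smul_eq_mul, mul_one] at h
  rw [h, volume_stdS]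
  ring

theorem int_one (a : Fin k) : ∫ x in ball (fun x : Fin k → ℝ => ∑ j, |x j|), |x a| =
    2 ^ k / (k.factorial : ℝ) * (1 / ((k : ℝ) + 1)) := by
  have hc : Continuous fun x : Fin k → ℝ => |x a| := by fun_prop
  rw [FB.reduct_univ (uncB k) (f := fun x => |x a|) (hc.continuousOn.integrableOn_compact (compB k))
    (fun j x => FB.refl_abs j a x), inter_orth]
  have h1 : ∫ x in stdS k, |x a| = ∫ x in stdS k, x a := by
    refine setIntegral_congr_fun ?_ fun x hx => abs_of_nonneg (hx.1 a)
    rw [← inter_orth]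
    exact ((compB k).isClosed.inter FB.orth_closed).measurableSet
  rw [h1, integral_stdS_x, Nat.factorial_succ]
  push_cast
  have : (k.factorial : ℝ) ≠ 0 := by positivity
  have : (k : ℝ) + 1 ≠ 0 := by positivity
  field_simp

theorem int_one_sq (a : Fin k) : ∫ x in ball (fun x : Fin k → ℝ => ∑ j, |x j|), x a ^ 2 =
    2 ^ k / (k.factorial : ℝ) * (2 / (((k : ℝ) + 1) * ((k : ℝ) + 2))) := by
  have hc : Continuous fun x : Fin k → ℝ => x a ^ 2 := by fun_prop
  rw [FB.reduct_univ (uncB k) (f := fun x => x a ^ 2)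
    (hc.continuousOn.integrableOn_compact (compB k))
    (fun j x => by rw [← sq_abs, FB.refl_abs, sq_abs]), inter_orth]
  have h1 := integral_stdS_xx a a
  simp only [if_true, ← pow_two] at h1
  rw [h1, Nat.factorial_succ, Nat.factorial_succ]
  push_cast
  have : (k.factorial : ℝ) ≠ 0 := by positivity
  have : (k : ℝ) + 1 ≠ 0 := by positivity
  have : (k : ℝ) + 2 ≠ 0 := by positivity
  have : (k : ℝ) + 1 + 1 ≠ 0 := by positivity
  field_simp
  ring

theorem uncond_one (d : Fin m → ℕ) {U : Set (Fin m → ℝ)} :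
    Uncond (gSum d (fun _ x => ∑ j, |x j|) U) := by
  intro x hx y hy
  have : (fun i => ∑ j, |block d y i j|) = fun i => ∑ j, |block d x i j| := by
    funext i
    exact Finset.sum_congr rfl fun j _ => hy _
  change (fun i => ∑ j, |block d y i j|) ∈ U
  rw [this]
  exact hx

end Vale.Agent.P254.US
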