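import Vale.Agent.P254.US.Defs
import Vale.Agent.P254.Bdl.B4
import Vale.Agent.P254.Bdl.B5
import Vale.Agent.P254.Bdl.B7
import Vale.Agent.P254.Bdl.B10
import Vale.Agent.P254.Bdl.B13
import Vale.Agent.P254.Bdl.B17
import Vale.Agent.P254.Bdl.B20

/-!
Unconditional bodies: the volume inequality and the inequality of Berwald, for the first absolute
moments of the whole body.
-/

open MeasureTheory Set

namespace Vale.Agent.P254.US

open Unc Unc.FB

variable {n : ℕ}

theorem unc_red {K : Set (Fin n → ℝ)} (hK : IsConvexBody K) (hu : Uncond K) :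
    (volume K).toReal = 2 ^ n * (volume (K ∩ {x | ∀ i, 0 ≤ x i})).toReal ∧
    (∀ i, ∫ x in K, |x i| = 2 ^ n * ∫ x in K ∩ {x | ∀ i, 0 ≤ x i}, x i) ∧
    ∀ i, ∫ x in K, x i ^ 2 = 2 ^ n * ∫ x in K ∩ {x | ∀ i, 0 ≤ x i}, x i ^ 2 := by
  obtain ⟨hc, hcp, hint⟩ := hK
  have hfin : volume K ≠ ⊤ := hcp.measure_lt_top.ne
  have hPk : IsCompact (K ∩ {x : Fin n → ℝ | ∀ i, 0 ≤ x i}) := hcp.inter_right orth_closed
  refine ⟨?_, fun i => ?_, fun i => ?_⟩
  · have h := reduct_univ hu (f := fun _ => (1 : ℝ)) (integrableOn_const hfin) (fun _ _ => rfl)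
    rw [setIntegral_const, setIntegral_const] at h
    simpa [Measure.real] using h
  · have hcont : Continuous fun x : Fin n → ℝ => |x i| := by fun_prop
    have h := reduct_univ hu (f := fun x => |x i|)
      (hcont.continuousOn.integrableOn_compact hcp) (fun j x => refl_abs j i x)
    rw [h]
    congr 1
    refine setIntegral_congr_fun hPk.measurableSet fun x hx => ?_
    exact abs_of_nonneg (hx.2 i)
  · have hcont : Continuous fun x : Fin n → ℝ => x i ^ 2 := by fun_prop
    refine reduct_univ hu (f := fun x => x i ^ 2)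
      (hcont.continuousOn.integrableOn_compact hcp) ?_
    intro j x
    rw [← sq_abs, refl_abs, sq_abs]

theorem unc_first {K : Set (Fin n → ℝ)} (hK : IsConvexBody K) (hu : Uncond K) :
    ∏ i, (4 * ∫ x in K, |x i|) ≤ (volume K).toReal ^ (n + 1) := by
  obtain ⟨h1, h2, -⟩ := unc_red hK hu
  have hKb := hK
  obtain ⟨hc, hcp, hint⟩ := hK
  set P : Set (Fin n → ℝ) := K ∩ {x | ∀ i, 0 ≤ x i} with hP
  have hPc : Convex ℝ P := hc.inter orth_convex
  have hPk : IsCompact P := hcp.inter_right orth_closed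
  have hPd : Down P := down hc hu
  have hV : 0 < (volume K).toReal := by
    refine ENNReal.toReal_pos ?_ hcp.measure_lt_top.ne
    have h1 := isOpen_interior.measure_pos volume hint
    exact (h1.trans_le (measure_mono interior_subset)).ne'
  have h2n : (0 : ℝ) < 2 ^ n := by positivity
  have hVp : 0 < (volume P).toReal := by
    rw [h1] at hV
    exact pos_of_mul_pos_right hV h2n.le
  have hPne : P.Nonempty := by
    rw [nonempty_iff_ne_empty]
    intro h
    rw [h, measure_empty, ENNReal.toReal_zero] at hVp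
    exact lt_irrefl _ hVp
  have h := uncr_all n P hPc hPk hPne hPd
  have e1 : ∏ i, (4 * ∫ x in K, |x i|) =
      (2 * 2 ^ n) ^ n * ∏ i, (2 * ∫ x in P, x i) := by
    have e3 : ∀ i : Fin n, 4 * ∫ x in K, |x i| = 2 * 2 ^ n * (2 * ∫ x in P, x i) := by
      intro i
      rw [h2 i]
      ring
    rw [Finset.prod_congr rfl fun i _ => e3 i, Finset.prod_mul_distrib, Finset.prod_const,
      Finset.card_univ, Fintype.card_fin]
  have e2 : ((2 : ℝ) * 2 ^ n) ^ n = (2 ^ n) ^ (n + 1) := by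
    rw [← pow_succ', ← pow_mul, ← pow_mul]
    congr 1
    ring
  rw [e1, h1, mul_pow (2 ^ n : ℝ), e2]
  exact mul_le_mul_of_nonneg_left h (by positivity)

theorem ber_first {K : Set (Fin n → ℝ)} (hK : IsConvexBody K) (hu : Uncond K) (i : Fin n) :
    ((n : ℝ) + 2) * ((volume K).toReal * ∫ x in K, x i ^ 2) ≤
      2 * ((n : ℝ) + 1) * (∫ x in K, |x i|) ^ 2 := by
  obtain ⟨h1, h2, h3⟩ := unc_red hK hu
  obtain ⟨hc, hcp, hint⟩ := hK
  set P : Set (Fin n → ℝ) := K ∩ {x | ∀ i, 0 ≤ x i} with hP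
  have hPc : Convex ℝ P := hc.inter orth_convex
  have hPk : IsCompact P := hcp.inter_right orth_closed
  have hn2 : (0 : ℝ) < (n : ℝ) + 2 := by positivity
  have h := berwald hPc hPk i (fun x hx => hx.2 i)
  rw [h1, h2 i, h3 i]
  change (volume P).toReal * ∫ x in P, x i ^ 2 ≤
    2 * ((n : ℝ) + 1) / ((n : ℝ) + 2) * (∫ x in P, x i) ^ 2 at h
  rw [div_mul_eq_mul_div, le_div_iff₀ hn2] at h
  have h4 : (0 : ℝ) ≤ 2 ^ n * 2 ^ n := by positivity
  nlinarith [mul_le_mul_of_nonneg_left h h4]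

end Vale.Agent.P254.US
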