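import Vale.Agent.P254.US.N
import Vale.Agent.P254.FV.Cls

/-!
Closure of the class of the bodies which satisfy the conjecture under unconditional sums.
-/

open MeasureTheory Set Matrix

namespace Vale.Agent.P254.FV

open Unc

variable {m : ℕ} {d : Fin m → ℕ} {U : Set (Fin m → ℝ)}

theorem Good.uncSum (hm : 2 ≤ m) {L : ∀ i, Set (Fin (d i) → ℝ)} (hL : ∀ i, Good (L i))
    (hc : ∀ i, centroid (L i) = 0) (hU : IsConvexBody U) (hu : Uncond U) :
    Good (P254.uncSum d L U) := by
  have h := US.Dn_uncSum_lt hm (fun i => (hL i).one_le) hU hu (fun i => (hL i).body) hc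
    (fun i => (hL i).le)
  refine ⟨?_, US.body_uncSum (fun i => (hL i).one_le) hU hu (fun i => (hL i).body) hc, h.le,
    fun h2 => absurd h2 h.ne⟩
  have h0 : 0 < m := by omega
  exact ((hL ⟨0, h0⟩).one_le).trans (Finset.single_le_sum (f := d)
    (fun _ _ => Nat.zero_le _) (Finset.mem_univ _))

theorem Good.nearSum (hm : 2 ≤ m) {L : ∀ i, Set (Fin (d i) → ℝ)} (hL : ∀ i, Good (L i))
    (hc : ∀ i, centroid (L i) = 0) (hU : IsConvexBody U) (hu : Uncond U)
    {K : Set (Fin (∑ i, d i) → ℝ)} (hK : IsConvexBody K) (hsub : K ⊆ P254.uncSum d L U)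
    (hvol : (1 - 1 / (20 * (((∑ i, d i : ℕ) : ℝ) + 2))) * (volume (P254.uncSum d L U)).toReal ≤
      (volume K).toReal) : Good K := by
  have h := US.Dn_nearSum hm (fun i => (hL i).one_le) hU hu (fun i => (hL i).body) hc
    (fun i => (hL i).le) hK hsub hvol
  refine ⟨?_, hK, h.le, fun h2 => absurd h2 h.ne⟩
  have h0 : 0 < m := by omega
  exact ((hL ⟨0, h0⟩).one_le).trans (Finset.single_le_sum (f := d)
    (fun _ _ => Nat.zero_le _) (Finset.mem_univ _))

end Vale.Agent.P254.FV
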