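import Vale.Agent.P254.Bdl.B2
import Vale.Agent.P254.Bdl.B10
import Vale.Agent.P254.Bdl.B17

/-!
Unconditional sums: the arithmetic of the values of the simplices.
`a k = ((k + 2) / (k + 1)) ^ k * simpC k = (k!) ^ 2 / (k + 1) ^ (2 k + 1)` is strictly supermultiplicative.
-/

namespace Vale.Agent.P254.US

open FV Finset

variable {m : ℕ}

/-- auxiliary sequence -/
noncomputable def aH (k : ℕ) : ℝ := (k.factorial : ℝ) ^ 2 / ((k : ℝ) + 1) ^ (2 * k + 1)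

theorem aH_pos (k : ℕ) : 0 < aH k := by
  unfold aH
  positivity

theorem aH_zero : aH 0 = 1 := by simp [aH]

theorem bern4 {a : ℝ} (ha : 0 ≤ a) (k : ℕ) :
    1 + k * a + (k : ℝ) * (k - 1) / 2 * a ^ 2 + (k : ℝ) * (k - 1) * (k - 2) / 6 * a ^ 3 ≤
      (1 + a) ^ k := by
  induction k with
  | zero => simp
  | succ k ih =>
    rw [pow_succ]
    have h1 := mul_le_mul_of_nonneg_right ih (show (0 : ℝ) ≤ 1 + a by linarith)
    refine le_trans ?_ h1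
    push_cast
    have h2 : 0 ≤ (k : ℝ) * (k - 1) * (k - 2) / 6 * a ^ 4 := by
      have h3 : 0 ≤ (k : ℝ) * (k - 1) * (k - 2) := by
        rcases k with _ | _ | k
        · simp
        · simp
        · push_cast
          have : (0 : ℝ) ≤ k := Nat.cast_nonneg k
          have e : ((k : ℝ) + 1 + 1) * ((k : ℝ) + 1 + 1 - 1) * ((k : ℝ) + 1 + 1 - 2) =
            (k + 2) * (k + 1) * k := by ring
          rw [e]
          positivity
      positivity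
    nlinarith [h2]

theorem ratio_key (n : ℕ) :
    ((n : ℝ) + 1) ^ (2 * n + 3) * ((n : ℝ) + 3) ^ (2 * n + 5) < ((n : ℝ) + 2) ^ (4 * n + 8) := by
  have hn : (0 : ℝ) ≤ n := Nat.cast_nonneg n
  set u : ℝ := ((n : ℝ) + 1) * ((n : ℝ) + 3) with hu
  have hu0 : 0 < u := by positivity
  have h1 := bern4 (a := 1 / u) (by positivity) (2 * n + 3)
  have h2 : ((n : ℝ) + 2) ^ (4 * n + 8) =
      (u ^ (2 * n + 3) * (1 + 1 / u) ^ (2 * n + 3)) * ((n : ℝ) + 2) ^ 2 := by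
    rw [← mul_pow]
    have h3 : u * (1 + 1 / u) = ((n : ℝ) + 2) ^ 2 := by
      rw [mul_add, mul_one, mul_one_div_cancel hu0.ne', hu]
      ring
    rw [h3, ← pow_mul, ← pow_add]
    congr 1
    ring
  have h4 : ((n : ℝ) + 1) ^ (2 * n + 3) * ((n : ℝ) + 3) ^ (2 * n + 5) =
      u ^ (2 * n + 3) * ((n : ℝ) + 3) ^ 2 := by
    rw [hu, mul_pow]
    ring
  rw [h2, h4, mul_assoc]
  have hA0 : 0 < u ^ (2 * n + 3) := by positivity
  refine (mul_lt_mul_iff_right₀ hA0).2 ?_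
  refine lt_of_lt_of_le ?_ (mul_le_mul_of_nonneg_right h1 (by positivity))
  push_cast
  have e : (1 + (2 * (n : ℝ) + 3) * (1 / u) +
      (2 * (n : ℝ) + 3) * (2 * (n : ℝ) + 3 - 1) / 2 * (1 / u) ^ 2 +
      (2 * (n : ℝ) + 3) * (2 * (n : ℝ) + 3 - 1) * (2 * (n : ℝ) + 3 - 2) / 6 * (1 / u) ^ 3) =
      (3 * ((n : ℝ) + 1) ^ 2 * ((n : ℝ) + 3) ^ 3 +
        3 * (2 * (n : ℝ) + 3) * (((n : ℝ) + 1) * ((n : ℝ) + 3) ^ 2) +
        3 * (2 * (n : ℝ) + 3) * (((n : ℝ) + 1) * ((n : ℝ) + 3)) +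
        (2 * (n : ℝ) + 3) * (2 * (n : ℝ) + 1)) /
        (3 * ((n : ℝ) + 1) ^ 2 * ((n : ℝ) + 3) ^ 3) := by
    rw [hu]
    field_simp
    ring
  rw [e, div_mul_eq_mul_div, lt_div_iff₀ (by positivity)]
  have e2 : (3 * ((n : ℝ) + 1) ^ 2 * ((n : ℝ) + 3) ^ 3 +
        3 * (2 * (n : ℝ) + 3) * (((n : ℝ) + 1) * ((n : ℝ) + 3) ^ 2) +
        3 * (2 * (n : ℝ) + 3) * (((n : ℝ) + 1) * ((n : ℝ) + 3)) +
        (2 * (n : ℝ) + 3) * (2 * (n : ℝ) + 1)) * ((n : ℝ) + 2) ^ 2 -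
      ((n : ℝ) + 3) ^ 2 * (3 * ((n : ℝ) + 1) ^ 2 * ((n : ℝ) + 3) ^ 3) =
      39 + 71 * (n : ℝ) + 39 * (n : ℝ) ^ 2 + 9 * (n : ℝ) ^ 3 + (n : ℝ) ^ 4 := by
    ring
  have e3 : 0 < 39 + 71 * (n : ℝ) + 39 * (n : ℝ) ^ 2 + 9 * (n : ℝ) ^ 3 + (n : ℝ) ^ 4 := by
    positivity
  linarith

/-- the quotients `aH (k + 1) / aH k` -/
noncomputable def rH (k : ℕ) : ℝ := (((k : ℝ) + 1) / ((k : ℝ) + 2)) ^ (2 * k + 3)

theorem rH_pos (k : ℕ) : 0 < rH k := by
  unfold rH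
  positivity

theorem aH_succ (k : ℕ) : aH (k + 1) = aH k * rH k := by
  unfold aH rH
  rw [Nat.factorial_succ]
  push_cast
  have e : ((k : ℝ) + 1 + 1) = (k : ℝ) + 2 := by ring
  rw [e, div_pow, div_mul_div_comm, div_eq_div_iff (by positivity) (by positivity)]
  ring

theorem rH_strictMono : StrictMono rH := by
  refine strictMono_nat_of_lt_succ fun k => ?_
  have h := ratio_key k
  unfold rH
  push_cast
  have e : ((k : ℝ) + 1 + 1) = (k : ℝ) + 2 := by ring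
  have e' : ((k : ℝ) + 1 + 2) = (k : ℝ) + 3 := by ring
  rw [e, e', div_pow, div_pow, div_lt_div_iff₀ (by positivity) (by positivity)]
  calc _ = ((k : ℝ) + 1) ^ (2 * k + 3) * ((k : ℝ) + 3) ^ (2 * k + 5) := by
        rw [show 2 * (k + 1) + 3 = 2 * k + 5 by ring]
    _ < _ := h
    _ = _ := by
        rw [show 2 * (k + 1) + 3 = 2 * k + 5 by ring, ← pow_add]
        congr 1
        ring

theorem aH_mul (p q : ℕ) : aH p * aH q ≤ aH (p + q) ∧
    (1 ≤ p → 1 ≤ q → aH p * aH q < aH (p + q)) := by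
  induction q with
  | zero => simp [aH_zero]
  | succ q ih =>
    have h1 : aH p * aH (q + 1) ≤ aH (p + q) * rH q := by
      rw [aH_succ q, ← mul_assoc]
      exact mul_le_mul_of_nonneg_right ih.1 (rH_pos q).le
    have h2 : aH (p + (q + 1)) = aH (p + q) * rH (p + q) := aH_succ (p + q)
    rw [h2]
    refine ⟨h1.trans (mul_le_mul_of_nonneg_left (rH_strictMono.monotone (by omega)) (aH_pos _).le), ?_⟩
    intro hp _
    exact h1.trans_lt ((mul_lt_mul_iff_right₀ (aH_pos _)).2 (rH_strictMono (by omega)))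

theorem aH_prod_le (d : Fin m → ℕ) : ∏ i, aH (d i) ≤ aH (∑ i, d i) := by
  induction m with
  | zero => simp [aH_zero]
  | succ m ih =>
    rw [Fin.prod_univ_succ, Fin.sum_univ_succ]
    exact (mul_le_mul_of_nonneg_left (ih fun i => d i.succ) (aH_pos _).le).trans (aH_mul _ _).1

theorem aH_eq (k : ℕ) : (((k : ℝ) + 2) / ((k : ℝ) + 1)) ^ k * simpC k = aH k := by
  unfold simpC aH
  rw [div_pow, mul_pow, div_mul_div_comm, div_eq_div_iff (by positivity) (by positivity)]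
  ring

theorem simpC_eq (k : ℕ) : (((k : ℝ) + 1) / ((k : ℝ) + 2)) ^ k * aH k = simpC k := by
  rw [← aH_eq, ← mul_assoc, ← mul_pow]
  have : ((k : ℝ) + 1) / ((k : ℝ) + 2) * (((k : ℝ) + 2) / ((k : ℝ) + 1)) = 1 := by
    field_simp
  rw [this, one_pow, one_mul]

theorem arith (hm : 2 ≤ m) (d : Fin m → ℕ) (hd : ∀ i, 1 ≤ d i) :
    ((((∑ i, d i : ℕ) : ℝ) + 1) / (((∑ i, d i : ℕ) : ℝ) + 2)) ^ (∑ i, d i) *
      ∏ i, ((((d i : ℝ) + 2) / ((d i : ℝ) + 1)) ^ (d i) * simpC (d i)) < simpC (∑ i, d i) := by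
  rw [← simpC_eq (∑ i, d i)]
  refine (mul_lt_mul_iff_right₀ (by positivity)).2 ?_
  rw [Finset.prod_congr rfl fun i _ => aH_eq (d i)]
  obtain ⟨m, rfl⟩ : ∃ k, m = k + 2 := ⟨m - 2, by omega⟩
  rw [Fin.prod_univ_succ, Fin.sum_univ_succ]
  refine (mul_le_mul_of_nonneg_left (aH_prod_le fun i : Fin (m + 1) => d i.succ)
    (aH_pos _).le).trans_lt ((aH_mul _ _).2 (hd 0) ?_)
  exact (hd _).trans (Finset.single_le_sum (f := fun i : Fin (m + 1) => d i.succ)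
    (fun i _ => Nat.zero_le _) (Finset.mem_univ 0))

end Vale.Agent.P254.US
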