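import Vale.Agent.P254.US.B
import Vale.Agent.P254.Bdl.B2
import Vale.Agent.P254.Bdl.B7
import Vale.Agent.P254.Bdl.B10
import Vale.Agent.P254.Bdl.B17
import Vale.Agent.P254.Bdl.B20

/-!
The covariance matrix of an unconditional sum.
-/

open MeasureTheory Set Matrix

namespace Vale.Agent.P254.US

open FV

variable {m : ℕ}

theorem det_block {d : Fin m → ℕ} (M : Matrix (Σ i, Fin (d i)) (Σ i, Fin (d i)) ℝ)
    (N : ∀ i, Matrix (Fin (d i)) (Fin (d i)) ℝ) (h0 : ∀ i j a b, i ≠ j → M ⟨i, a⟩ ⟨j, b⟩ = 0)
    (h1 : ∀ i a b, M ⟨i, a⟩ ⟨i, b⟩ = N i a b) : M.det = ∏ i, (N i).det := by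
  have hT : M.BlockTriangular Sigma.fst := fun p q hpq => h0 _ _ _ _ (ne_of_gt hpq)
  rw [hT.det_fintype]
  refine Finset.prod_congr rfl fun i _ => ?_
  rw [← det_submatrix_equiv_self (Equiv.sigmaSubtype i).symm]
  congr 1
  ext a b
  exact h1 i a b

variable {d : Fin m → ℕ} {g : ∀ i, (Fin (d i) → ℝ) → ℝ} {U : Set (Fin m → ℝ)}

theorem prod_update_one (i : Fin m) (φ : (Fin (d i) → ℝ) → ℝ) (y : ∀ i, Fin (d i) → ℝ) :
    ∏ j, (Function.update (fun (j : Fin m) (_ : Fin (d j) → ℝ) => (1 : ℝ)) i φ) j (y j) =
      φ (y i) := by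
  rw [Finset.prod_eq_single i]
  · rw [Function.update_self]
  · intro j _ hj
    rw [Function.update_of_ne hj]
  · intro h
    exact absurd (Finset.mem_univ i) h

theorem int_single (hg : ∀ i, IsG (g i)) (hU : MeasurableSet U) (hUb : Bornology.IsBounded U)
    (hK : IsCompact (gSum d g U)) (i : Fin m) (q : ℕ) {φ : (Fin (d i) → ℝ) → ℝ}
    (hφ : Continuous φ) (hφh : ∀ t : ℝ, 0 ≤ t → ∀ x, φ (t • x) = t ^ q * φ x) :
    ∫ x in gSum d g U, φ (block d x i) =
      (∫ x in ball (g i), φ x) * (∏ j ∈ Finset.univ.erase i, (volume (ball (g j))).toReal) *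
        wt (fun j => d j + if j = i then q else 0) U := by
  have h := master d hg (fun j => if j = i then q else 0)
    (f := Function.update (fun (j : Fin m) (_ : Fin (d j) → ℝ) => (1 : ℝ)) i φ) ?_ ?_ hU hUb hK
  · simp_rw [prod_update_one] at h
    rw [h, ← Finset.mul_prod_erase Finset.univ _ (Finset.mem_univ i), Function.update_self]
    congr 2
    refine Finset.prod_congr rfl fun j hj => ?_
    rw [Function.update_of_ne (Finset.ne_of_mem_erase hj), setIntegral_const]
    simp [Measure.real]
  · intro j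
    by_cases hj : j = i
    · subst hj
      rw [Function.update_self]
      exact hφ
    · rw [Function.update_of_ne hj]
      exact continuous_const
  · intro j t ht x
    by_cases hj : j = i
    · subst hj
      rw [Function.update_self, if_pos rfl]
      exact hφh t ht x
    · rw [Function.update_of_ne hj, if_neg hj]
      simp

theorem int_double (hg : ∀ i, IsG (g i)) (hU : MeasurableSet U) (hUb : Bornology.IsBounded U)
    (hK : IsCompact (gSum d g U)) {i j : Fin m} (hij : i ≠ j) {φ : (Fin (d i) → ℝ) → ℝ}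
    {ψ : (Fin (d j) → ℝ) → ℝ} (hφ : Continuous φ) (hψ : Continuous ψ)
    (hφh : ∀ t : ℝ, 0 ≤ t → ∀ x, φ (t • x) = t * φ x)
    (hψh : ∀ t : ℝ, 0 ≤ t → ∀ x, ψ (t • x) = t * ψ x)
    (h0 : ∫ x in ball (g i), φ x = 0) :
    ∫ x in gSum d g U, φ (block d x i) * ψ (block d x j) = 0 := by
  have h := master d hg (fun l => if l = i ∨ l = j then 1 else 0)
    (f := Function.update (Function.update (fun (l : Fin m) (_ : Fin (d l) → ℝ) => (1 : ℝ)) j ψ)
      i φ) ?_ ?_ hU hUb hK
  · have e : ∀ x : Fin (∑ i, d i) → ℝ, ∏ l, (Function.update (Function.update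
        (fun (l : Fin m) (_ : Fin (d l) → ℝ) => (1 : ℝ)) j ψ) i φ) l (block d x l) =
        φ (block d x i) * ψ (block d x j) := by
      intro x
      rw [Finset.prod_eq_mul i j hij]
      · rw [Function.update_self, Function.update_of_ne hij.symm, Function.update_self]
      · intro l _ hl
        rw [Function.update_of_ne hl.1, Function.update_of_ne hl.2]
      · intro h; exact absurd (Finset.mem_univ i) h
      · intro h; exact absurd (Finset.mem_univ j) h
    simp_rw [e] at h
    rw [h, Finset.prod_eq_zero (Finset.mem_univ i), zero_mul]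
    rw [Function.update_self]
    exact h0
  · intro l
    by_cases hl : l = i
    · subst hl
      rw [Function.update_self]
      exact hφ
    · rw [Function.update_of_ne hl]
      by_cases hl2 : l = j
      · subst hl2
        rw [Function.update_self]
        exact hψ
      · rw [Function.update_of_ne hl2]
        exact continuous_const
  · intro l t ht x
    by_cases hl : l = i
    · subst hl
      rw [Function.update_self, if_pos (Or.inl rfl), pow_one]
      exact hφh t ht x
    · rw [Function.update_of_ne hl]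
      by_cases hl2 : l = j
      · subst hl2
        rw [Function.update_self, if_pos (Or.inr rfl), pow_one]
        exact hψh t ht x
      · rw [Function.update_of_ne hl2, if_neg (by tauto)]
        simp

theorem vol_gSum (hg : ∀ i, IsG (g i)) (hU : MeasurableSet U) (hUb : Bornology.IsBounded U)
    (hK : IsCompact (gSum d g U)) :
    (volume (gSum d g U)).toReal = (∏ i, (volume (ball (g i))).toReal) * wt d U := by
  have h := master d hg (fun _ => 0) (f := fun _ _ => (1 : ℝ)) (fun i => continuous_const)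
    (fun i t _ x => by simp) hU hUb hK
  simpa [Measure.real] using h

theorem centroid_gSum (hg : ∀ i, IsG (g i)) (hU : MeasurableSet U) (hUb : Bornology.IsBounded U)
    (hK : IsCompact (gSum d g U)) (hc : ∀ i a, ∫ x in ball (g i), x a = 0)
    (s : Fin (∑ i, d i)) : centroid (gSum d g U) s = 0 := by
  obtain ⟨⟨i, a⟩, rfl⟩ := finSigmaFinEquiv.surjective s
  rw [centroid]
  have h := int_single hg hU hUb hK i 1 (φ := fun x => x a) (continuous_apply a)
    (fun t _ x => by simp)
  rw [hc i a, zero_mul, zero_mul] at h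
  have e : ∫ x in gSum d g U, x (finSigmaFinEquiv ⟨i, a⟩) = ∫ x in gSum d g U, block d x i a := rfl
  rw [e, h, mul_zero]

theorem cov_gSum (hg : ∀ i, IsG (g i)) (hU : MeasurableSet U) (hUb : Bornology.IsBounded U)
    (hK : IsCompact (gSum d g U)) (hc : ∀ i a, ∫ x in ball (g i), x a = 0)
    (hV : ∀ i, (volume (ball (g i))).toReal ≠ 0) (hM : wt d U ≠ 0) :
    (covMatrix (gSum d g U)).det =
      ∏ i, ((wt (fun j => d j + if j = i then 2 else 0) U / wt d U) ^ d i *
        (covMatrix (ball (g i))).det) := by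
  have hVK : (volume (gSum d g U)).toReal ≠ 0 := by
    rw [vol_gSum hg hU hUb hK]
    exact mul_ne_zero (Finset.prod_ne_zero_iff.2 fun i _ => hV i) hM
  have hB : ∀ i, IsCompact (ball (g i)) := fun i => (hg i).isCompact 1
  have hcB : ∀ i a, centroid (ball (g i)) a = 0 := fun i a => by rw [centroid, hc i a, mul_zero]
  rw [← det_submatrix_equiv_self finSigmaFinEquiv (covMatrix (gSum d g U))]
  rw [det_block _ (fun i => (wt (fun j => d j + if j = i then 2 else 0) U / wt d U) •
    covMatrix (ball (g i)))]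
  · refine Finset.prod_congr rfl fun i _ => ?_
    rw [det_smul, Fintype.card_fin]
  · intro i j a b hij
    rw [submatrix_apply, cov_eq hK hVK, centroid_gSum hg hU hUb hK hc, zero_mul, sub_zero]
    have h := int_double hg hU hUb hK hij (φ := fun x => x a) (ψ := fun x => x b)
      (continuous_apply a) (continuous_apply b) (fun t _ x => by simp) (fun t _ x => by simp)
      (hc i a)
    have e : ∫ x in gSum d g U, x (finSigmaFinEquiv ⟨i, a⟩) * x (finSigmaFinEquiv ⟨j, b⟩) =
      ∫ x in gSum d g U, block d x i a * block d x j b := rfl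
    rw [e, h, mul_zero]
  · intro i a b
    rw [submatrix_apply, cov_eq hK hVK, centroid_gSum hg hU hUb hK hc, zero_mul, sub_zero]
    have h := int_single hg hU hUb hK i 2 (φ := fun x => x a * x b)
      ((continuous_apply a).mul (continuous_apply b)) (fun t _ x => by
        simp only [Pi.smul_apply, smul_eq_mul]; ring)
    have e : ∫ x in gSum d g U, x (finSigmaFinEquiv ⟨i, a⟩) * x (finSigmaFinEquiv ⟨i, b⟩) =
      ∫ x in gSum d g U, block d x i a * block d x i b := rfl
    rw [e, h, Matrix.smul_apply, smul_eq_mul, cov_eq (hB i) (hV i), hcB, zero_mul, sub_zero,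
      vol_gSum hg hU hUb hK, ← Finset.mul_prod_erase Finset.univ _ (Finset.mem_univ i)]
    have hE : ∏ j ∈ Finset.univ.erase i, (volume (ball (g j))).toReal ≠ 0 :=
      Finset.prod_ne_zero_iff.2 fun j _ => hV j
    have := hV i
    field_simp

theorem Dn_gSum (hg : ∀ i, IsG (g i)) (hU : MeasurableSet U) (hUb : Bornology.IsBounded U)
    (hK : IsCompact (gSum d g U)) (hc : ∀ i a, ∫ x in ball (g i), x a = 0)
    (hV : ∀ i, (volume (ball (g i))).toReal ≠ 0) (hM : wt d U ≠ 0) :
    Dn (gSum d g U) =
      (∏ i, ((wt (fun j => d j + if j = i then 2 else 0) U / wt d U) ^ d i *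
        Dn (ball (g i)))) / wt d U ^ 2 := by
  unfold Dn
  rw [cov_gSum hg hU hUb hK hc hV hM, vol_gSum hg hU hUb hK, mul_pow, ← Finset.prod_pow,
    Finset.prod_mul_distrib, Finset.prod_mul_distrib, Finset.prod_div_distrib]
  have hP : ∏ i, (volume (ball (g i))).toReal ^ 2 ≠ 0 :=
    Finset.prod_ne_zero_iff.2 fun i _ => pow_ne_zero 2 (hV i)
  field_simp

end Vale.Agent.P254.US
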