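import Vale.Agent.P254.US.Defs
import Vale.Agent.P254.FV.Pyr2

/-!
Unconditional sums: moments of `gSum d g U` from the master formula, the covariance matrix and the
normalised determinant (helper655).
-/

open MeasureTheory Set Matrix

namespace Vale.Agent.P254.US

open Unc FV

/-- master formula (block B), nonnegative factors -/
def MasterStmt : Prop := ∀ (m : ℕ) (d : Fin m → ℕ) (g : ∀ i, (Fin (d i) → ℝ) → ℝ),
  (∀ i, IsG (g i)) → ∀ U : Set (Fin m → ℝ), IsCompact U → ∀ (p : Fin m → ℕ)
  (f : ∀ i, (Fin (d i) → ℝ) → ℝ), (∀ i, Continuous (f i)) → (∀ i x, 0 ≤ f i x) →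
  (∀ i (t : ℝ), 0 ≤ t → ∀ x, f i (t • x) = t ^ p i * f i x) →
  ∫ x in gSum d g U, ∏ i, f i (block d x i) =
    (∏ i, ∫ x in ball (g i), f i x) * wt (fun i => d i + p i) U

variable {m k n : ℕ}

theorem continuous_block (d : Fin m → ℕ) (i : Fin m) : Continuous (fun x => block d x i) := by
  unfold block
  fun_prop

theorem IsG.isCompact_ball {g : (Fin k → ℝ) → ℝ} (hg : IsG g) : IsCompact (ball g) := by
  obtain ⟨c, hc, h⟩ := hg.coer
  refine Metric.isCompact_of_isClosed_isBounded (isClosed_le hg.cont continuous_const) ?_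
  rw [isBounded_iff_forall_norm_le]
  refine ⟨1 / c, fun x hx => ?_⟩
  rw [le_div_iff₀ hc]
  have h1 := h x
  have h2 : g x ≤ 1 := hx
  linarith

theorem IsG.zero {g : (Fin k → ℝ) → ℝ} (hg : IsG g) : g 0 = 0 := by
  have := hg.smul 0 le_rfl 0
  simpa using this

theorem IsG.vol_pos {g : (Fin k → ℝ) → ℝ} (hg : IsG g) : 0 < (volume (ball g)).toReal := by
  refine ENNReal.toReal_pos ?_ hg.isCompact_ball.measure_lt_top.ne
  have h1 : IsOpen {x | g x < 1} := isOpen_lt hg.cont continuous_const
  have h2 : ({x | g x < 1} : Set (Fin k → ℝ)).Nonempty := ⟨0, by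
    show g 0 < 1
    rw [hg.zero]; norm_num⟩
  have h3 := h1.measure_pos volume h2
  exact (h3.trans_le (measure_mono fun x hx => (show g x < 1 from hx).le)).ne'

theorem prod_update {β : Fin m → Type*} (φ : ∀ j, β j → ℝ) (f : ∀ j, β j) (i : Fin m) (h : β i) :
    ∏ j, φ j (Function.update f i h j) = φ i h * ∏ j ∈ Finset.univ.erase i, φ j (f j) := by
  rw [← Finset.mul_prod_erase Finset.univ _ (Finset.mem_univ i), Function.update_self]
  congr 1
  refine Finset.prod_congr rfl fun j hj => ?_
  rw [Function.update_of_ne (Finset.ne_of_mem_erase hj)]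

/-- master formula with signed factors -/
theorem master_signed (hM : MasterStmt) {d : Fin m → ℕ} {g : ∀ i, (Fin (d i) → ℝ) → ℝ}
    (hg : ∀ i, IsG (g i)) {U : Set (Fin m → ℝ)} (hU : IsCompact U)
    (hK : IsCompact (gSum d g U)) {p : Fin m → ℕ} :
    ∀ (s : Finset (Fin m)) {f : ∀ i, (Fin (d i) → ℝ) → ℝ} (_ : ∀ i, Continuous (f i))
    (_ : ∀ i (t : ℝ), 0 ≤ t → ∀ x, f i (t • x) = t ^ p i * f i x)
    (_ : ∀ i, i ∉ s → ∀ x, 0 ≤ f i x),
    ∫ x in gSum d g U, ∏ i, f i (block d x i) =
      (∏ i, ∫ x in ball (g i), f i x) * wt (fun i => d i + p i) U := by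
  intro s
  induction s using Finset.induction_on with
  | empty =>
    intro f hf hh h0
    exact hM m d g hg U hU p f hf (fun i => h0 i (by simp)) hh
  | insert i s hi ih =>
    intro f hf hh h0
    set f1 : (Fin (d i) → ℝ) → ℝ := fun x => max (f i x) 0 with hf1
    set f2 : (Fin (d i) → ℝ) → ℝ := fun x => max (-f i x) 0 with hf2
    have c1 : Continuous f1 := (hf i).max continuous_const
    have c2 : Continuous f2 := (hf i).neg.max continuous_const
    have cu : ∀ h : (Fin (d i) → ℝ) → ℝ, Continuous h → ∀ j, Continuous (Function.update f i h j) := by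
      intro h hh j
      rcases eq_or_ne j i with rfl | hj
      · rwa [Function.update_self]
      · rw [Function.update_of_ne hj]; exact hf j
    have hu : ∀ h : (Fin (d i) → ℝ) → ℝ, (∀ t : ℝ, 0 ≤ t → ∀ x, h (t • x) = t ^ p i * h x) →
        ∀ j (t : ℝ), 0 ≤ t → ∀ x, Function.update f i h j (t • x) =
          t ^ p j * Function.update f i h j x := by
      intro h hh' j t ht x
      rcases eq_or_ne j i with rfl | hj
      · rw [Function.update_self]; exact hh' t ht x
      · rw [Function.update_of_ne hj]; exact hh j t ht x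
    have h0u : ∀ h : (Fin (d i) → ℝ) → ℝ, (∀ x, 0 ≤ h x) → ∀ j, j ∉ s →
        ∀ x, 0 ≤ Function.update f i h j x := by
      intro h hh' j hj x
      rcases eq_or_ne j i with rfl | hji
      · rw [Function.update_self]; exact hh' x
      · rw [Function.update_of_ne hji]
        exact h0 j (by simp [hji, hj]) x
    have m1 := ih (cu f1 c1) (hu f1 fun t ht x => by
      simp only [hf1]
      rw [hh i t ht x, mul_max_of_nonneg _ _ (pow_nonneg ht _), mul_zero])
      (h0u f1 fun x => le_max_right _ _)
    have m2 := ih (cu f2 c2) (hu f2 fun t ht x => by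
      simp only [hf2]
      rw [hh i t ht x, mul_max_of_nonneg _ _ (pow_nonneg ht _), mul_zero, mul_neg])
      (h0u f2 fun x => le_max_right _ _)
    have e12 : ∀ x, f1 x - f2 x = f i x := by
      intro x
      simp only [hf1, hf2]
      rcases le_total 0 (f i x) with h | h
      · rw [max_eq_left h, max_eq_right (by linarith)]; ring
      · rw [max_eq_right h, max_eq_left (by linarith)]; ring
    have cp : ∀ F : ∀ i, (Fin (d i) → ℝ) → ℝ, (∀ i, Continuous (F i)) →
        IntegrableOn (fun x => ∏ j, F j (block d x j)) (gSum d g U) := fun F hF =>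
      (continuous_finsetProd _ fun j _ => (hF j).comp (continuous_block d j)).continuousOn.integrableOn_compact hK
    have l1 : ∫ x in gSum d g U, ∏ j, f j (block d x j) =
        (∫ x in gSum d g U, ∏ j, Function.update f i f1 j (block d x j)) -
        ∫ x in gSum d g U, ∏ j, Function.update f i f2 j (block d x j) := by
      rw [← integral_sub (cp _ (cu f1 c1)) (cp _ (cu f2 c2))]
      refine integral_congr_ae (Filter.Eventually.of_forall fun x => ?_)
      show ∏ j, f j (block d x j) = (∏ j, Function.update f i f1 j (block d x j)) -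
        ∏ j, Function.update f i f2 j (block d x j)
      rw [prod_update (fun j (h : (Fin (d j) → ℝ) → ℝ) => h (block d x j)) f i f1,
        prod_update (fun j (h : (Fin (d j) → ℝ) → ℝ) => h (block d x j)) f i f2, ← sub_mul, e12,
        ← Finset.mul_prod_erase Finset.univ _ (Finset.mem_univ i)]
    have l2 : ∏ j, ∫ x in ball (g j), f j x =
        (∏ j, ∫ x in ball (g j), Function.update f i f1 j x) -
        ∏ j, ∫ x in ball (g j), Function.update f i f2 j x := by
      rw [prod_update (fun j (h : (Fin (d j) → ℝ) → ℝ) => ∫ x in ball (g j), h x) f i f1,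
        prod_update (fun j (h : (Fin (d j) → ℝ) → ℝ) => ∫ x in ball (g j), h x) f i f2, ← sub_mul,
        ← Finset.mul_prod_erase Finset.univ _ (Finset.mem_univ i)]
      congr 1
      rw [← integral_sub (c1.continuousOn.integrableOn_compact (hg i).isCompact_ball)
        (c2.continuousOn.integrableOn_compact (hg i).isCompact_ball)]
      exact integral_congr_ae (Filter.Eventually.of_forall fun x => (e12 x).symm)
    rw [l1, l2, m1, m2, sub_mul]

variable {d : Fin m → ℕ} {g : ∀ i, (Fin (d i) → ℝ) → ℝ} {U : Set (Fin m → ℝ)}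

theorem one_block (hM : MasterStmt) (hg : ∀ i, IsG (g i)) (hU : IsCompact U)
    (hK : IsCompact (gSum d g U)) (i : Fin m) {q : ℕ} {f : (Fin (d i) → ℝ) → ℝ}
    (hf : Continuous f) (hh : ∀ t : ℝ, 0 ≤ t → ∀ x, f (t • x) = t ^ q * f x) :
    ∫ x in gSum d g U, f (block d x i) = (∫ x in ball (g i), f x) *
      (∏ j ∈ Finset.univ.erase i, (volume (ball (g j))).toReal) *
        wt (fun j => d j + Function.update (0 : Fin m → ℕ) i q j) U := by
  have h := master_signed hM hg hU hK (p := Function.update (0 : Fin m → ℕ) i q) Finset.univ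
    (f := Function.update (fun _ _ => 1) i f) ?_ ?_ ?_
  · have e1 : ∀ x : Fin (∑ i, d i) → ℝ,
        ∏ j, (Function.update (fun _ _ => (1 : ℝ)) i f : ∀ j, (Fin (d j) → ℝ) → ℝ) j (block d x j) =
          f (block d x i) := by
      intro x
      rw [prod_update (fun j (h : (Fin (d j) → ℝ) → ℝ) => h (block d x j)) _ i f]
      simp
    have e2 : ∏ j, ∫ x in ball (g j),
        (Function.update (fun _ _ => (1 : ℝ)) i f : ∀ j, (Fin (d j) → ℝ) → ℝ) j x =
          (∫ x in ball (g i), f x) *
            ∏ j ∈ Finset.univ.erase i, (volume (ball (g j))).toReal := by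
      rw [prod_update (fun j (h : (Fin (d j) → ℝ) → ℝ) => ∫ x in ball (g j), h x) _ i f]
      congr 1
      refine Finset.prod_congr rfl fun j _ => ?_
      simp [measureReal_def]
    simp_rw [e1] at h
    rw [h, e2]
  · intro j
    rcases eq_or_ne j i with rfl | hj
    · rwa [Function.update_self]
    · rw [Function.update_of_ne hj]; exact continuous_const
  · intro j t ht x
    rcases eq_or_ne j i with rfl | hj
    · rw [Function.update_self, Function.update_self]; exact hh t ht x
    · rw [Function.update_of_ne hj, Function.update_of_ne hj]; simp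
  · intro j hj; simp at hj

theorem vol_gSum (hM : MasterStmt) (hg : ∀ i, IsG (g i)) (hU : IsCompact U) :
    (volume (gSum d g U)).toReal = (∏ i, (volume (ball (g i))).toReal) * wt d U := by
  have h := hM m d g hg U hU 0 (fun _ _ => 1) (fun _ => continuous_const) (fun _ _ => zero_le_one)
    (fun i t _ x => by simp)
  have e : (fun i => d i + (0 : Fin m → ℕ) i) = d := by funext i; simp
  rw [e] at h
  simpa [measureReal_def] using h

/-- mixed moments vanish when a factor has mean zero -/
theorem two_block_zero (hM : MasterStmt) (hg : ∀ i, IsG (g i)) (hU : IsCompact U)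
    (hK : IsCompact (gSum d g U)) {i j : Fin m} (hij : i ≠ j) {f : (Fin (d i) → ℝ) → ℝ}
    {h : (Fin (d j) → ℝ) → ℝ} (hf : Continuous f) (hh : Continuous h) {q r : ℕ}
    (hf' : ∀ t : ℝ, 0 ≤ t → ∀ x, f (t • x) = t ^ q * f x)
    (hh' : ∀ t : ℝ, 0 ≤ t → ∀ x, h (t • x) = t ^ r * h x)
    (hz : ∫ x in ball (g j), h x = 0) :
    ∫ x in gSum d g U, f (block d x i) * h (block d x j) = 0 := by
  have key := master_signed hM hg hU hK
    (p := Function.update (Function.update (0 : Fin m → ℕ) i q) j r) Finset.univ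
    (f := Function.update (Function.update (fun _ _ => 1) i f) j h) ?_ ?_ ?_
  · have e1 : ∀ x : Fin (∑ i, d i) → ℝ,
        ∏ l, (Function.update (Function.update (fun _ _ => (1 : ℝ)) i f) j h :
          ∀ j, (Fin (d j) → ℝ) → ℝ) l (block d x l) = f (block d x i) * h (block d x j) := by
      intro x
      rw [prod_update (fun j (h : (Fin (d j) → ℝ) → ℝ) => h (block d x j)) _ j h,
        ← Finset.mul_prod_erase (Finset.univ.erase j) _
          (Finset.mem_erase.2 ⟨hij, Finset.mem_univ i⟩), Function.update_self]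
      have : ∏ l ∈ (Finset.univ.erase j).erase i,
          (Function.update (fun _ _ => (1 : ℝ)) i f : ∀ j, (Fin (d j) → ℝ) → ℝ) l (block d x l)
            = 1 := by
        refine Finset.prod_eq_one fun l hl => ?_
        rw [Function.update_of_ne (Finset.ne_of_mem_erase hl)]
      rw [this]; ring
    simp_rw [e1] at key
    rw [key]
    have e2 : ∏ l, ∫ x in ball (g l),
        (Function.update (Function.update (fun _ _ => (1 : ℝ)) i f) j h :
          ∀ j, (Fin (d j) → ℝ) → ℝ) l x = 0 := by
      refine Finset.prod_eq_zero (Finset.mem_univ j) ?_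
      rw [Function.update_self]; exact hz
    rw [e2, zero_mul]
  · intro l
    rcases eq_or_ne l j with rfl | hj
    · rwa [Function.update_self]
    · rw [Function.update_of_ne hj]
      rcases eq_or_ne l i with rfl | hi
      · rwa [Function.update_self]
      · rw [Function.update_of_ne hi]; exact continuous_const
  · intro l t ht x
    rcases eq_or_ne l j with rfl | hj
    · rw [Function.update_self, Function.update_self]; exact hh' t ht x
    · rw [Function.update_of_ne hj, Function.update_of_ne hj]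
      rcases eq_or_ne l i with rfl | hi
      · rw [Function.update_self, Function.update_self]; exact hf' t ht x
      · rw [Function.update_of_ne hi, Function.update_of_ne hi]; simp
  · intro l hl; simp at hl

/-! ### covariance -/

theorem homog_coord {k : ℕ} (a : Fin k) (t : ℝ) (x : Fin k → ℝ) :
    (t • x) a = t ^ 1 * x a := by simp

theorem homog_coord2 {k : ℕ} (a b : Fin k) (t : ℝ) (x : Fin k → ℝ) :
    (t • x) a * (t • x) b = t ^ 2 * (x a * x b) := by
  simp only [Pi.smul_apply, smul_eq_mul]; ring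

theorem int_zero_of_centroid {k : ℕ} {L : Set (Fin k → ℝ)} (hV : (volume L).toReal ≠ 0)
    (hc : centroid L = 0) (a : Fin k) : ∫ x in L, x a = 0 := by
  have h := congrFun hc a
  simp only [centroid, Pi.zero_apply, mul_eq_zero, inv_eq_zero] at h
  exact h.resolve_left hV

theorem centroid_gSum (hM : MasterStmt) (hg : ∀ i, IsG (g i)) (hU : IsCompact U)
    (hK : IsCompact (gSum d g U)) (hc : ∀ i, centroid (ball (g i)) = 0) :
    centroid (gSum d g U) = 0 := by
  funext s
  obtain ⟨⟨i, a⟩, rfl⟩ := finSigmaFinEquiv.surjective s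
  have h1 := one_block hM hg hU hK i (q := 1) (f := fun y => y a) (by fun_prop)
    (fun t _ x => homog_coord a t x)
  have h2 : ∫ x in gSum d g U, x (finSigmaFinEquiv ⟨i, a⟩) = 0 := by
    have : ∫ x in gSum d g U, x (finSigmaFinEquiv ⟨i, a⟩) =
      ∫ x in gSum d g U, block d x i a := rfl
    rw [this, h1, int_zero_of_centroid (hg i).vol_pos.ne' (hc i) a]; ring
  simp only [centroid, h2, mul_zero, Pi.zero_apply]

/-- weight with `q` added at `i` -/
noncomputable def wq (d : Fin m → ℕ) (U : Set (Fin m → ℝ)) (i : Fin m) (q : ℕ) : ℝ :=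
  wt (fun j => d j + Function.update (0 : Fin m → ℕ) i q j) U

theorem cov_gSum_same (hM : MasterStmt) (hg : ∀ i, IsG (g i)) (hU : IsCompact U)
    (hK : IsCompact (gSum d g U)) (hc : ∀ i, centroid (ball (g i)) = 0)
    (i : Fin m) (a b : Fin (d i)) :
    covMatrix (gSum d g U) (finSigmaFinEquiv ⟨i, a⟩) (finSigmaFinEquiv ⟨i, b⟩) =
      wq d U i 2 / wt d U * covMatrix (ball (g i)) a b := by
  have h1 := one_block hM hg hU hK i (q := 2) (f := fun y => y a * y b) (by fun_prop)
    (fun t _ x => homog_coord2 a b t x)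
  simp only [covMatrix, centroid_gSum hM hg hU hK hc, hc i, Pi.zero_apply, sub_zero]
  have h2 : ∫ x in gSum d g U, x (finSigmaFinEquiv ⟨i, a⟩) * x (finSigmaFinEquiv ⟨i, b⟩) =
      ∫ x in gSum d g U, block d x i a * block d x i b := rfl
  rw [h2, h1, vol_gSum hM hg hU]
  have hv : (∏ j, (volume (ball (g j))).toReal) = (volume (ball (g i))).toReal *
      ∏ j ∈ Finset.univ.erase i, (volume (ball (g j))).toReal :=
    (Finset.mul_prod_erase Finset.univ _ (Finset.mem_univ i)).symm
  have hp : (∏ j ∈ Finset.univ.erase i, (volume (ball (g j))).toReal) ≠ 0 :=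
    (Finset.prod_pos fun j _ => (hg j).vol_pos).ne'
  have hi := (hg i).vol_pos.ne'
  rw [hv]
  unfold wq
  by_cases hw : wt d U = 0
  · simp [hw]
  field_simp

theorem cov_gSum_diff (hM : MasterStmt) (hg : ∀ i, IsG (g i)) (hU : IsCompact U)
    (hK : IsCompact (gSum d g U)) (hc : ∀ i, centroid (ball (g i)) = 0)
    {i j : Fin m} (hij : i ≠ j) (a : Fin (d i)) (b : Fin (d j)) :
    covMatrix (gSum d g U) (finSigmaFinEquiv ⟨i, a⟩) (finSigmaFinEquiv ⟨j, b⟩) = 0 := by
  have h1 := two_block_zero hM hg hU hK hij (q := 1) (r := 1) (f := fun y => y a)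
    (h := fun y => y b) (by fun_prop) (by fun_prop) (fun t _ x => homog_coord a t x)
    (fun t _ x => homog_coord b t x) (int_zero_of_centroid (hg j).vol_pos.ne' (hc j) b)
  simp only [covMatrix, centroid_gSum hM hg hU hK hc, Pi.zero_apply, sub_zero]
  have h2 : ∫ x in gSum d g U, x (finSigmaFinEquiv ⟨i, a⟩) * x (finSigmaFinEquiv ⟨j, b⟩) =
      ∫ x in gSum d g U, block d x i a * block d x j b := rfl
  rw [h2, h1, mul_zero]

/-- determinant of a block diagonal matrix, blocks indexed by `finSigmaFinEquiv` -/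
theorem det_blocks (d : Fin m → ℕ) (A : Matrix (Fin (∑ i, d i)) (Fin (∑ i, d i)) ℝ)
    (B : ∀ i, Matrix (Fin (d i)) (Fin (d i)) ℝ)
    (h1 : ∀ i a b, A (finSigmaFinEquiv ⟨i, a⟩) (finSigmaFinEquiv ⟨i, b⟩) = B i a b)
    (h2 : ∀ i j, i ≠ j → ∀ a b, A (finSigmaFinEquiv ⟨i, a⟩) (finSigmaFinEquiv ⟨j, b⟩) = 0) :
    A.det = ∏ i, (B i).det := by
  set bl : Fin (∑ i, d i) → Fin m := fun x => (finSigmaFinEquiv.symm x).1 with hbl
  have ht : A.BlockTriangular bl := by
    intro x y hxy
    obtain ⟨⟨i, a⟩, rfl⟩ := finSigmaFinEquiv.surjective x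
    obtain ⟨⟨j, b⟩, rfl⟩ := finSigmaFinEquiv.surjective y
    refine h2 i j ?_ a b
    rintro rfl
    simp [hbl] at hxy
  rw [ht.det_fintype]
  refine Finset.prod_congr rfl fun i _ => ?_
  let e : Fin (d i) ≃ {x // bl x = i} := Equiv.ofBijective
    (fun a => ⟨finSigmaFinEquiv ⟨i, a⟩, by simp [hbl]⟩) (by
      constructor
      · intro a b hab
        have h3 := finSigmaFinEquiv.injective (Subtype.ext_iff.1 hab)
        simpa using h3
      · rintro ⟨x, hx⟩
        obtain ⟨⟨j, b⟩, rfl⟩ := finSigmaFinEquiv.surjective x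
        have : j = i := by simpa [hbl] using hx
        subst this
        exact ⟨b, rfl⟩)
  rw [← Matrix.det_submatrix_equiv_self e]
  congr 1
  ext a b
  exact h1 i a b

/-- the normalised determinant of `gSum` -/
theorem Dn_gSum (hM : MasterStmt) (hg : ∀ i, IsG (g i)) (hU : IsCompact U)
    (hK : IsCompact (gSum d g U)) (hc : ∀ i, centroid (ball (g i)) = 0) :
    Dn (gSum d g U) = (∏ i, ((wq d U i 2 / wt d U) ^ (d i) * Dn (ball (g i)))) / wt d U ^ 2 := by
  have h1 := det_blocks d (covMatrix (gSum d g U))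
    (fun i => (wq d U i 2 / wt d U) • covMatrix (ball (g i)))
    (fun i a b => by
      rw [cov_gSum_same hM hg hU hK hc i a b, Matrix.smul_apply, smul_eq_mul])
    (fun i j hij a b => cov_gSum_diff hM hg hU hK hc hij a b)
  unfold Dn
  rw [h1, vol_gSum hM hg hU, mul_pow, ← div_div]
  congr 1
  rw [← Finset.prod_pow, ← Finset.prod_div_distrib]
  refine Finset.prod_congr rfl fun i _ => ?_
  rw [det_smul, Fintype.card_fin]
  ring

end Vale.Agent.P254.US
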