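import Vale.Agent.P254.US.I
import Vale.Agent.P254.US.D
import Vale.Agent.P254.US.F
import Vale.Agent.P254.US.F2
import Vale.Agent.P254.US.G

/-!
The bound for the normalised determinant of an unconditional sum.
-/

open MeasureTheory Set Matrix

namespace Vale.Agent.P254.US

open FV Unc

variable {m : ℕ} {d : Fin m → ℕ} {U : Set (Fin m → ℝ)}

theorem prod_fin_sigma (f : Fin (∑ i, d i) → ℝ) :
    ∏ s, f s = ∏ i, ∏ a : Fin (d i), f (finSigmaFinEquiv ⟨i, a⟩) := by
  rw [← Fintype.prod_equiv finSigmaFinEquiv (fun p => f (finSigmaFinEquiv p)) f (fun _ => rfl),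
    Fintype.prod_sigma]

theorem prod_pow_sum (c : ℝ) : ∏ i, c ^ d i = c ^ (∑ i, d i) :=
  Finset.prod_pow_eq_pow_sum _ _ _

theorem wt_pos (hd : ∀ i, 1 ≤ d i) (hU : IsConvexBody U) (hu : Uncond U) : 0 < wt d U := by
  have hb := body_gSum d hd (fun i => isG_sup (d i)) hU hu
  have h := vol_gSum (fun i => isG_sup (d i)) hU.2.1.measurableSet hU.2.1.isBounded hb.2.1
  have hp := vol_pos hb
  rw [h] at hp
  simp_rw [vol_sup] at hp
  rw [prod_pow_sum] at hp
  exact pos_of_mul_pos_right hp (by positivity)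

theorem wt_nonneg (q : Fin m → ℕ) (U : Set (Fin m → ℝ)) : 0 ≤ wt q U := ENNReal.toReal_nonneg

theorem wt_first (hd : ∀ i, 1 ≤ d i) (hU : IsConvexBody U) (hu : Uncond U) :
    ∏ i, wt (fun j => d j + if j = i then 1 else 0) U ^ d i ≤ wt d U ^ (∑ i, d i + 1) := by
  have hb := body_gSum d hd (fun i => isG_sup (d i)) hU hu
  have h := vol_gSum (fun i => isG_sup (d i)) hU.2.1.measurableSet hU.2.1.isBounded hb.2.1
  have h1 := unc_first hb (uncond_sup d)
  simp_rw [vol_sup] at h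
  rw [prod_pow_sum] at h
  have hI : ∀ (i : Fin m) (a : Fin (d i)),
      ∫ x in gSum d (fun _ x => ‖x‖) U, |x (finSigmaFinEquiv ⟨i, a⟩)| =
        2 ^ (∑ i, d i) / 2 * wt (fun j => d j + if j = i then 1 else 0) U := by
    intro i a
    have h2 := int_single (fun i => isG_sup (d i)) hU.2.1.measurableSet hU.2.1.isBounded hb.2.1
      i 1 (φ := fun x => |x a|) (continuous_apply a).abs
      (fun t ht x => by simp [abs_mul, abs_of_nonneg ht])
    rw [int_sup] at h2
    simp_rw [vol_sup] at h2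
    have e : ∫ x in gSum d (fun _ x => ‖x‖) U, |x (finSigmaFinEquiv ⟨i, a⟩)| =
      ∫ x in gSum d (fun _ x => ‖x‖) U, |block d x i a| := rfl
    rw [e, h2, ← prod_pow_sum (d := d) (2 : ℝ),
      ← Finset.mul_prod_erase Finset.univ _ (Finset.mem_univ i)]
    ring
  rw [prod_fin_sigma, h] at h1
  simp_rw [hI, Finset.prod_const, Finset.card_univ, Fintype.card_fin] at h1
  have e2 : ∀ i : Fin m, (4 * ((2 : ℝ) ^ (∑ i, d i) / 2 *
      wt (fun j => d j + if j = i then 1 else 0) U)) ^ d i =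
      (2 ^ (∑ i, d i + 1)) ^ d i * wt (fun j => d j + if j = i then 1 else 0) U ^ d i := by
    intro i
    rw [← mul_pow]
    congr 1
    rw [pow_succ]
    ring
  simp_rw [e2] at h1
  rw [Finset.prod_mul_distrib, prod_pow_sum, mul_pow, ← pow_mul, ← pow_mul,
    mul_comm (∑ i, d i + 1) (∑ i, d i)] at h1
  exact le_of_mul_le_mul_left h1 (by positivity)

theorem wt_second (hd : ∀ i, 1 ≤ d i) (hU : IsConvexBody U) (hu : Uncond U) (i : Fin m) :
    (((∑ i, d i : ℕ) : ℝ) + 2) * ((d i : ℝ) + 1) *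
      (wt d U * wt (fun j => d j + if j = i then 2 else 0) U) ≤
    (((∑ i, d i : ℕ) : ℝ) + 1) * ((d i : ℝ) + 2) *
      wt (fun j => d j + if j = i then 1 else 0) U ^ 2 := by
  have hb := body_gSum d hd (fun i => isG_one (d i)) hU hu
  have h := vol_gSum (fun i => isG_one (d i)) hU.2.1.measurableSet hU.2.1.isBounded hb.2.1
  have ha : 0 < d i := hd i
  set a : Fin (d i) := ⟨0, ha⟩
  have h1 := ber_first hb (uncond_one d) (finSigmaFinEquiv ⟨i, a⟩)
  have h2 := int_single (fun i => isG_one (d i)) hU.2.1.measurableSet hU.2.1.isBounded hb.2.1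
    i 1 (φ := fun x => |x a|) (continuous_apply a).abs
    (fun t ht x => by simp [abs_mul, abs_of_nonneg ht])
  have h3 := int_single (fun i => isG_one (d i)) hU.2.1.measurableSet hU.2.1.isBounded hb.2.1
    i 2 (φ := fun x => x a ^ 2) ((continuous_apply a).pow 2)
    (fun t ht x => by simp only [Pi.smul_apply, smul_eq_mul]; ring)
  rw [int_one] at h2
  rw [int_one_sq] at h3
  have e1 : ∫ x in gSum d (fun _ x => ∑ j, |x j|) U, |x (finSigmaFinEquiv ⟨i, a⟩)| =
      ∫ x in gSum d (fun _ x => ∑ j, |x j|) U, |block d x i a| := rfl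
  have e2 : ∫ x in gSum d (fun _ x => ∑ j, |x j|) U, x (finSigmaFinEquiv ⟨i, a⟩) ^ 2 =
      ∫ x in gSum d (fun _ x => ∑ j, |x j|) U, block d x i a ^ 2 := rfl
  rw [e1, e2, h2, h3, h] at h1
  simp_rw [vol_one] at h1
  rw [← Finset.mul_prod_erase Finset.univ _ (Finset.mem_univ i)] at h1
  set P : ℝ := ∏ j ∈ Finset.univ.erase i, 2 ^ d j / ((d j).factorial : ℝ)
  have hP : 0 < P := Finset.prod_pos fun j _ => by positivity
  set v : ℝ := 2 ^ d i / ((d i).factorial : ℝ)
  have hv : 0 < v := by positivity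
  have hk1 : (0 : ℝ) < (d i : ℝ) + 1 := by positivity
  have hk2 : (0 : ℝ) < (d i : ℝ) + 2 := by positivity
  set k : ℝ := (d i : ℝ)
  set N : ℝ := ((∑ i, d i : ℕ) : ℝ)
  set M0 : ℝ := wt d U
  set M1 : ℝ := wt (fun j => d j + if j = i then 1 else 0) U
  set M2 : ℝ := wt (fun j => d j + if j = i then 2 else 0) U
  have hc : 0 < 2 * (v * P) ^ 2 / ((k + 1) ^ 2 * (k + 2)) := by positivity
  refine le_of_mul_le_mul_left ?_ hc
  calc _ = (N + 2) * (v * P * M0 * (v * (2 / ((k + 1) * (k + 2))) * P * M2)) := by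
        field_simp
    _ ≤ _ := h1
    _ = _ := by field_simp

theorem Dn_gSum_le (hd : ∀ i, 1 ≤ d i) (hU : IsConvexBody U) (hu : Uncond U)
    {g : ∀ i, (Fin (d i) → ℝ) → ℝ} (hg : ∀ i, IsG (g i))
    (hc : ∀ i a, ∫ x in ball (g i), x a = 0)
    (hV : ∀ i, (volume (ball (g i))).toReal ≠ 0) :
    Dn (gSum d g U) ≤ ((((∑ i, d i : ℕ) : ℝ) + 1) / (((∑ i, d i : ℕ) : ℝ) + 2)) ^ (∑ i, d i) *
      ∏ i, ((((d i : ℝ) + 2) / ((d i : ℝ) + 1)) ^ (d i) * Dn (ball (g i))) := by
  have hb := body_gSum d hd hg hU hu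
  have hM0 := wt_pos hd hU hu
  rw [Dn_gSum hg hU.2.1.measurableSet hU.2.1.isBounded hb.2.1 hc hV hM0.ne']
  have hD0 : ∀ i, 0 ≤ Dn (ball (g i)) := fun i =>
    div_nonneg (covMatrix_posSemidef ((hg i).isCompact 1)).det_nonneg (by positivity)
  set N : ℝ := ((∑ i, d i : ℕ) : ℝ) with hN
  have hN1 : (0 : ℝ) < N + 1 := by positivity
  have hN2 : (0 : ℝ) < N + 2 := by positivity
  have h1 : ∀ i, (wt (fun j => d j + if j = i then 2 else 0) U / wt d U) ^ d i *
      Dn (ball (g i)) ≤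
      ((N + 1) / (N + 2)) ^ d i * ((((d i : ℝ) + 2) / ((d i : ℝ) + 1)) ^ (d i) *
        Dn (ball (g i))) * ((wt (fun j => d j + if j = i then 1 else 0) U / wt d U) ^ d i) ^ 2 := by
    intro i
    have h2 := wt_second hd hU hu i
    have h3 : wt (fun j => d j + if j = i then 2 else 0) U / wt d U ≤
        (N + 1) / (N + 2) * (((d i : ℝ) + 2) / ((d i : ℝ) + 1)) *
        (wt (fun j => d j + if j = i then 1 else 0) U / wt d U) ^ 2 := by
      rw [div_pow, div_mul_div_comm, div_mul_div_comm, div_le_div_iff₀ hM0 (by positivity)]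
      nlinarith [mul_le_mul_of_nonneg_left h2 hM0.le]
    have h4 := pow_le_pow_left₀ (div_nonneg (wt_nonneg _ U) hM0.le) h3 (d i)
    calc _ ≤ ((N + 1) / (N + 2) * (((d i : ℝ) + 2) / ((d i : ℝ) + 1)) *
        (wt (fun j => d j + if j = i then 1 else 0) U / wt d U) ^ 2) ^ d i * Dn (ball (g i)) :=
          mul_le_mul_of_nonneg_right h4 (hD0 i)
      _ = _ := by rw [mul_pow, mul_pow, ← pow_mul, ← pow_mul, mul_comm 2 (d i)]; ring
  have h5 : ∏ i, (wt (fun j => d j + if j = i then 1 else 0) U / wt d U) ^ d i ≤ wt d U := by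
    simp_rw [div_pow]
    rw [Finset.prod_div_distrib, prod_pow_sum, div_le_iff₀ (by positivity), ← pow_succ']
    exact wt_first hd hU hu
  have h6 : 0 ≤ ∏ i, (wt (fun j => d j + if j = i then 1 else 0) U / wt d U) ^ d i :=
    Finset.prod_nonneg fun i _ => pow_nonneg (div_nonneg (wt_nonneg _ U) hM0.le) _
  rw [div_le_iff₀ (by positivity)]
  calc _ ≤ ∏ i, (((N + 1) / (N + 2)) ^ d i * ((((d i : ℝ) + 2) / ((d i : ℝ) + 1)) ^ (d i) *
        Dn (ball (g i))) *
          ((wt (fun j => d j + if j = i then 1 else 0) U / wt d U) ^ d i) ^ 2) :=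
        Finset.prod_le_prod (fun i _ => mul_nonneg
          (pow_nonneg (div_nonneg (wt_nonneg _ U) hM0.le) _) (hD0 i)) fun i _ => h1 i
    _ = (((N + 1) / (N + 2)) ^ (∑ i, d i) *
        ∏ i, ((((d i : ℝ) + 2) / ((d i : ℝ) + 1)) ^ (d i) * Dn (ball (g i)))) *
        (∏ i, (wt (fun j => d j + if j = i then 1 else 0) U / wt d U) ^ d i) ^ 2 := by
        rw [Finset.prod_mul_distrib, Finset.prod_mul_distrib, prod_pow_sum, Finset.prod_pow]
    _ ≤ _ := by
        refine mul_le_mul_of_nonneg_left (pow_le_pow_left₀ h6 h5 2) ?_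
        exact mul_nonneg (by positivity) (Finset.prod_nonneg fun i _ =>
          mul_nonneg (by positivity) (hD0 i))

end Vale.Agent.P254.US
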