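import Vale.Agent.P254.US.J
import Vale.Agent.P254.US.E
import Vale.Agent.P254.US.H

/-!
Closure of the class of the bodies which satisfy the conjecture under unconditional sums.
-/

open MeasureTheory Set Matrix

namespace Vale.Agent.P254.US

open FV Unc

variable {m : ℕ} {d : Fin m → ℕ} {U : Set (Fin m → ℝ)}

theorem uncSum_eq (L : ∀ i, Set (Fin (d i) → ℝ)) :
    uncSum d L U = gSum d (fun i => gauge (L i)) U := rfl

theorem zero_mem_interior {n : ℕ} {L : Set (Fin n → ℝ)} (hL : IsConvexBody L)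
    (hc : centroid L = 0) : (0 : Fin n → ℝ) ∈ interior L := by
  have h := centroid_mem_interior hL
  rwa [hc] at h

theorem body_uncSum (hd : ∀ i, 1 ≤ d i) (hU : IsConvexBody U) (hu : Uncond U)
    {L : ∀ i, Set (Fin (d i) → ℝ)} (hL : ∀ i, IsConvexBody (L i))
    (hc : ∀ i, centroid (L i) = 0) : IsConvexBody (uncSum d L U) :=
  body_gSum d hd (fun i => (isG_gauge (hL i) (zero_mem_interior (hL i) (hc i))).1) hU hu

theorem Dn_uncSum_le (hd : ∀ i, 1 ≤ d i) (hU : IsConvexBody U) (hu : Uncond U)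
    {L : ∀ i, Set (Fin (d i) → ℝ)} (hL : ∀ i, IsConvexBody (L i))
    (hc : ∀ i, centroid (L i) = 0) :
    Dn (uncSum d L U) ≤ ((((∑ i, d i : ℕ) : ℝ) + 1) / (((∑ i, d i : ℕ) : ℝ) + 2)) ^ (∑ i, d i) *
      ∏ i, ((((d i : ℝ) + 2) / ((d i : ℝ) + 1)) ^ (d i) * Dn (L i)) := by
  have hg := fun i => isG_gauge (hL i) (zero_mem_interior (hL i) (hc i))
  have hV : ∀ i, (volume (ball (gauge (L i)))).toReal ≠ 0 := fun i => by
    rw [(hg i).2]
    exact (vol_pos (hL i)).ne'
  have h0 : ∀ i a, ∫ x in ball (gauge (L i)), x a = 0 := fun i a => by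
    rw [(hg i).2]
    have h := congrFun (hc i) a
    rw [centroid, Pi.zero_apply] at h
    rcases mul_eq_zero.1 h with h1 | h1
    · exact absurd h1 (inv_ne_zero (vol_pos (hL i)).ne')
    · exact h1
  have h := Dn_gSum_le hd hU hu (fun i => (hg i).1) h0 hV
  simp_rw [fun i => (hg i).2] at h
  exact h

/-- If all the `L i` satisfy the conjecture then so does every unconditional sum of them (with a
strict inequality if there are at least two of them). -/
theorem Dn_uncSum_lt (hm : 2 ≤ m) (hd : ∀ i, 1 ≤ d i) (hU : IsConvexBody U) (hu : Uncond U)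
    {L : ∀ i, Set (Fin (d i) → ℝ)} (hL : ∀ i, IsConvexBody (L i))
    (hc : ∀ i, centroid (L i) = 0) (hD : ∀ i, Dn (L i) ≤ simpC (d i)) :
    Dn (uncSum d L U) < simpC (∑ i, d i) := by
  refine ((Dn_uncSum_le hd hU hu hL hc).trans ?_).trans_lt (arith hm d hd)
  refine mul_le_mul_of_nonneg_left ?_ (by positivity)
  refine Finset.prod_le_prod (fun i _ => ?_) fun i _ => ?_
  · exact mul_nonneg (by positivity)
      (div_nonneg (covMatrix_posSemidef (hL i).2.1).det_nonneg (by positivity))
  · exact mul_le_mul_of_nonneg_left (hD i) (by positivity)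

end Vale.Agent.P254.US
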